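import Mathlib

/-!
P043: valuation patterns of fifteen binary linear forms.

There are three parity classes of forms, five forms in each. In class `c`, with a suitable
unimodular pair `P, Q`, they are `P + Q, P - Q, P - 3 Q, P + 3 Q, P + 5 Q`.
-/

namespace Vale.Agent.P043

/-- coefficients of form `j` of class `c` -/
def coef : Fin 3 → Fin 5 → ℤ × ℤ
  | 0, 0 => (1, 2)
  | 0, 1 => (1, 0)
  | 0, 2 => (1, -2)
  | 0, 3 => (1, 4)
  | 0, 4 => (1, 6)
  | 1, 0 => (2, 1)
  | 1, 1 => (0, 1)
  | 1, 2 => (-2, 1)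
  | 1, 3 => (4, 1)
  | 1, 4 => (6, 1)
  | 2, 0 => (1, 1)
  | 2, 1 => (1, -1)
  | 2, 2 => (1, -3)
  | 2, 3 => (1, 3)
  | 2, 4 => (1, 5)

/-- value of form `j` of class `c` at `x` -/
def lin (c : Fin 3) (j : Fin 5) (x : ℤ × ℤ) : ℤ := (coef c j).1 * x.1 + (coef c j).2 * x.2

lemma lin_add (c : Fin 3) (j : Fin 5) (x y : ℤ × ℤ) :
    lin c j (x + y) = lin c j x + lin c j y := by
  simp only [lin, Prod.fst_add, Prod.snd_add]; ring

lemma lin_mul (c : Fin 3) (j : Fin 5) (r : ℤ) (x : ℤ × ℤ) :
    lin c j (r * x.1, r * x.2) = r * lin c j x := by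
  simp only [lin]; ring

/-- A pattern of states allowed at one point: all forms vanish, or two classes have valuation `t`,
and in the third class one group has `t + 1` and the other contains `t + 2` in the stated way. -/
def Good (s : Fin 3 → Fin 5 → Option (ZMod 3)) : Prop :=
  (∀ c j, s c j = none) ∨
  ∃ (t : ZMod 3) (c : Fin 3), (∀ d, d ≠ c → ∀ j, s d j = some t) ∧
    ((s c 0 = some (t + 1) ∧ s c 2 = some (t + 1) ∧ s c 4 = some (t + 1) ∧
        (s c 1 = some (t + 2) ∨ s c 3 = some (t + 2))) ∨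
     (s c 1 = some (t + 1) ∧ s c 3 = some (t + 1) ∧
        (s c 0 = some (t + 2) ∨ (s c 2 = some (t + 2) ∧ s c 4 = some (t + 2)))))

/-- valuation modulo 3, with a separate value at zero -/
def val3 (m : ℤ) : Option (ZMod 3) :=
  if m = 0 then none else some (padicValInt 2 m : ZMod 3)

lemma val3_zero : val3 0 = none := if_pos rfl

lemma val3_two_mul (m : ℤ) : val3 (2 * m) = (val3 m).map (· + 1) := by
  by_cases hm : m = 0
  · simp [val3, hm]
  · have h2 : (2 * m : ℤ) ≠ 0 := by positivity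
    haveI : Fact (Nat.Prime 2) := ⟨Nat.prime_two⟩
    have : padicValInt 2 (2 * m) = padicValInt 2 m + 1 := by
      rw [padicValInt.mul (by norm_num) hm]
      have h : padicValInt 2 (2 : ℤ) = 1 := by
        have := padicValInt.self (p := 2) (by norm_num)
        exact this
      omega
    simp [val3, hm, h2, this]

lemma val3_odd {m : ℤ} (hm : Odd m) : val3 m = some 0 := by
  have h0 : m ≠ 0 := by rintro rfl; simp at hm
  have : padicValInt 2 m = 0 := by
    apply padicValInt.eq_zero_of_not_dvd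
    intro h
    exact (Int.not_even_iff_odd.2 hm) (even_iff_two_dvd.2 h)
  simp [val3, h0, this]

lemma val3_two {m : ℤ} (hm : m % 4 = 2) : val3 m = some 1 := by
  obtain ⟨r, rfl⟩ : ∃ r, m = 2 * r := ⟨m / 2, by omega⟩
  rw [val3_two_mul, val3_odd (Int.odd_iff.2 (by omega))]
  rfl

lemma val3_four {m : ℤ} (hm : m % 8 = 4) : val3 m = some 2 := by
  obtain ⟨r, rfl⟩ : ∃ r, m = 2 * r := ⟨m / 2, by omega⟩
  rw [val3_two_mul, val3_two (by omega)]
  rfl

lemma good_map {s : Fin 3 → Fin 5 → Option (ZMod 3)} (h : Good s) :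
    Good (fun c j => (s c j).map (· + 1)) := by
  rcases h with h | ⟨t, c, h1, h2⟩
  · exact Or.inl fun c j => by simp [h c j]
  · refine Or.inr ⟨t + 1, c, fun d hd j => by simp [h1 d hd j], ?_⟩
    rcases h2 with ⟨a, b, e, f⟩ | ⟨a, b, f⟩
    · left
      refine ⟨by simp [a], by simp [b], by simp [e], ?_⟩
      rcases f with f | f
      · left; simp [f]; ring
      · right; simp [f]; ring
    · right
      refine ⟨by simp [a], by simp [b], ?_⟩
      rcases f with f | ⟨f, g⟩
      · left; simp [f]; ring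
      · right
        exact ⟨by simp [f]; ring, by simp [g]; ring⟩

lemma good_core (c : Fin 3) (x : ℤ × ℤ) (hd : ∀ d, d ≠ c → ∀ j, Odd (lin d j x))
    (h : (lin c 0 x % 4 = 2 ∧ lin c 2 x % 4 = 2 ∧ lin c 4 x % 4 = 2 ∧
        (lin c 1 x % 8 = 4 ∨ lin c 3 x % 8 = 4)) ∨
      (lin c 1 x % 4 = 2 ∧ lin c 3 x % 4 = 2 ∧
        (lin c 0 x % 8 = 4 ∨ (lin c 2 x % 8 = 4 ∧ lin c 4 x % 8 = 4)))) :
    Good (fun c j => val3 (lin c j x)) := by
  refine Or.inr ⟨0, c, fun d h' j => val3_odd (hd d h' j), ?_⟩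
  simp only [zero_add]
  rcases h with ⟨a, b, e, f⟩ | ⟨a, b, f⟩
  · exact Or.inl ⟨val3_two a, val3_two b, val3_two e, f.imp val3_four val3_four⟩
  · exact Or.inr ⟨val3_two a, val3_two b, f.imp val3_four (fun g => ⟨val3_four g.1, val3_four g.2⟩)⟩

lemma good_primitive (a b : ℤ) (h : a % 2 = 1 ∨ b % 2 = 1) :
    Good (fun c j => val3 (lin c j (a, b))) := by
  have key : ∀ c : Fin 3, (∀ d, d ≠ c → ∀ j, Odd (lin d j (a, b))) → _ → _ :=
    fun c => good_core c (a, b)
  by_cases ha : a % 2 = 1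
  · by_cases hb : b % 2 = 1
    · apply key 2
      · intro d hd j
        rw [Int.odd_iff]
        fin_cases d <;> fin_cases j <;> simp [lin, coef] at hd ⊢ <;> omega
      · simp only [lin, coef]; omega
    · apply key 1
      · intro d hd j
        rw [Int.odd_iff]
        fin_cases d <;> fin_cases j <;> simp [lin, coef] at hd ⊢ <;> omega
      · simp only [lin, coef]; omega
  · apply key 0
    · intro d hd j
      rw [Int.odd_iff]
      fin_cases d <;> fin_cases j <;> simp [lin, coef] at hd ⊢ <;> omega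
    · simp only [lin, coef]; omega

lemma good_val3 (x : ℤ × ℤ) : Good (fun c j => val3 (lin c j x)) := by
  obtain ⟨a, b⟩ := x
  induction hn : a.natAbs + b.natAbs using Nat.strong_induction_on generalizing a b with
  | _ n ih =>
    by_cases h : a % 2 = 1 ∨ b % 2 = 1
    · exact good_primitive a b h
    · by_cases h0 : a = 0 ∧ b = 0
      · left; intro c j; simp [lin, h0.1, h0.2, val3_zero]
      · obtain ⟨a', rfl⟩ : ∃ r, a = 2 * r := ⟨a / 2, by omega⟩
        obtain ⟨b', rfl⟩ : ∃ r, b = 2 * r := ⟨b / 2, by omega⟩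
        have := good_map (ih (a'.natAbs + b'.natAbs) (by omega) a' b' rfl)
        have e : ∀ c j, val3 (lin c j (2 * a', 2 * b')) = (val3 (lin c j (a', b'))).map (· + 1) :=
          fun c j => by rw [← val3_two_mul, ← lin_mul c j 2 (a', b')]
        simpa only [e] using this

end Vale.Agent.P043
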