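import Mathlib
import Vale.Agent.P043.Pattern

/-!
P043: an aperiodic system of one-periodic functions with a pointwise relation and a parity clock.
-/

namespace Vale.Agent.P043

/-- The pointwise relation: an allowed pattern `s`, two parity bits `e₀, e₂`, and the clock bit. -/
def Rel (s : Fin 3 → Fin 5 → Option (ZMod 3)) (e₀ e₂ clock : Bool) : Prop :=
  Good s ∧ e₂ = xor e₀ clock ∧ (e₀ = true → ∀ j, s 0 j = some 0) ∧
    (clock = true → ∀ j, s 1 j = some 0) ∧ (e₂ = true → ∀ j, s 2 j = some 0)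

lemma rel_intended (x : ℤ × ℤ) :
    Rel (fun c j => val3 (lin c j x)) (decide (Odd x.1)) (decide (Odd (x.1 + x.2)))
      (decide (Odd x.2)) := by
  refine ⟨good_val3 x, ?_, ?_, ?_, ?_⟩
  · by_cases h1 : Odd x.1 <;> by_cases h2 : Odd x.2 <;> simp [h1, h2, Int.odd_add] <;>
      simp_all [Int.not_even_iff_odd]
  all_goals
    intro h j
    apply val3_odd
    rw [decide_eq_true_iff, Int.odd_iff] at h
    rw [Int.odd_iff]
    fin_cases j <;> simp [lin, coef] <;> omega

/-- The point with `P = m + n` and `Q = m - n` in the coordinates of class `c`. -/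
def pt : Fin 3 → ℤ → ℤ → ℤ × ℤ
  | 0, m, n => (2 * n, m - n)
  | 1, m, n => (m - n, 2 * n)
  | 2, m, n => (m + n, m - n)

lemma lin_pt (c : Fin 3) (m n : ℤ) :
    lin c 0 (pt c m n) = 2 * m ∧ lin c 1 (pt c m n) = 2 * n ∧
    lin c 2 (pt c m n) = 2 * (2 * n - m) ∧ lin c 3 (pt c m n) = 2 * (2 * m - n) ∧
    lin c 4 (pt c m n) = 2 * (3 * m - 2 * n) := by
  fin_cases c <;> simp [lin, coef, pt] <;> and_intros <;> first | trivial | ring

lemma lin_pt_odd (c d : Fin 3) (hd : d ≠ c) (m n : ℤ) (h : Odd (m + n)) (j : Fin 5) :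
    Odd (lin d j (pt c m n)) := by
  rw [Int.odd_iff] at h ⊢
  fin_cases c <;> fin_cases d <;> fin_cases j <;> simp [lin, coef, pt] at hd ⊢ <;> omega

/-- If in two classes some group of forms has value `K - 1`, the third class is the exceptional one. -/
lemma good_known {s : Fin 3 → Fin 5 → Option (ZMod 3)} (hs : Good s) (c : Fin 3) (k : ZMod 3)
    (h : ∀ d, d ≠ c → ∀ j, j ≠ 4 → s d j = some k) :
    ((s c 0 = some (k + 1) ∧ s c 2 = some (k + 1)) ∨ (s c 1 = some (k + 1) ∧ s c 3 = some (k + 1))) ∧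
    (s c 0 = some (k + 1) → s c 1 = some (k + 1) →
      (s c 2 = some (k + 1) ↔ s c 4 = some (k + 1)) ∧
      (s c 2 = some (k + 1) ↔ ¬ s c 3 = some (k + 1))) := by
  have hex : ∀ c : Fin 3, ∃ d, d ≠ c := by decide
  have hex2 : ∀ c c' : Fin 3, ∃ d, d ≠ c ∧ d ≠ c' := by decide
  rcases hs with hn | ⟨t, c', h1, h2⟩
  · obtain ⟨d, hd⟩ := hex c
    have := h d hd 0 (by decide)
    simp [hn] at this
  · have htk : t = k := by
      obtain ⟨d, hd, hd'⟩ := hex2 c c'
      have e1 := h d hd 0 (by decide)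
      rw [h1 d hd'] at e1
      exact Option.some_injective _ e1
    subst htk
    have n1 : t + 1 ≠ t := (by decide : ∀ z : ZMod 3, z + 1 ≠ z) t
    have n2 : t + 2 ≠ t + 1 := (by decide : ∀ z : ZMod 3, z + 2 ≠ z + 1) t
    have hc : c' = c := by
      by_contra hne
      rcases h2 with ⟨a, -, -, -⟩ | ⟨a, -, -⟩
      · rw [h c' hne 0 (by decide)] at a; exact n1 (Option.some_injective _ a).symm
      · rw [h c' hne 1 (by decide)] at a; exact n1 (Option.some_injective _ a).symm
    subst hc
    rcases h2 with ⟨a, b, e, f⟩ | ⟨a, b, f⟩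
    · refine ⟨Or.inl ⟨a, b⟩, fun _ hS => ⟨by simp [b, e], ?_⟩⟩
      rcases f with f | f
      · rw [f] at hS; exact absurd (Option.some_injective _ hS) n2
      · simp [b, f, n2]
    · refine ⟨Or.inr ⟨a, b⟩, fun hT _ => ?_⟩
      rcases f with f | ⟨f, g⟩
      · rw [f] at hT; exact absurd (Option.some_injective _ hT) n2
      · simp [b, f, g, n2]

/-- At most one group of four is at level `K`, or some class has none. -/
lemma good_groups {s : Fin 3 → Fin 5 → Option (ZMod 3)} (hs : Good s) (K : ZMod 3) :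
    let g : Fin 3 → Bool → Prop := fun c b =>
      if b then s c 0 = some K ∧ s c 2 = some K else s c 1 = some K ∧ s c 3 = some K
    (∀ c b c' b', g c b → g c' b' → c = c' ∧ b = b') ∨ ∃ c, ¬ g c true ∧ ¬ g c false := by
  intro g
  rcases hs with hn | ⟨t, c, h1, h2⟩
  · right; exact ⟨0, by simp [g, hn], by simp [g, hn]⟩
  · have n1 : t + 1 ≠ t ∧ t + 2 ≠ t ∧ t + 2 ≠ t + 1 :=
      (by decide : ∀ z : ZMod 3, z + 1 ≠ z ∧ z + 2 ≠ z ∧ z + 2 ≠ z + 1) t
    by_cases hK : t = K
    · subst hK
      right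
      refine ⟨c, ?_⟩
      rcases h2 with ⟨a, b, e, f⟩ | ⟨a, b, f⟩
      · refine ⟨by simp [g, a, n1], ?_⟩
        rcases f with f | f <;> simp [g, f, n1]
      · refine ⟨?_, by simp [g, a, n1]⟩
        rcases f with f | ⟨f, -⟩ <;> simp [g, f, n1]
    · left
      have hoth : ∀ d b, g d b → d = c := by
        intro d b hg
        by_contra hd
        cases b <;> simp [g, h1 d hd, hK] at hg
      have hone : ¬ (g c true ∧ g c false) := by
        rintro ⟨hT, hS⟩
        simp only [g] at hT hS
        rcases h2 with ⟨a, b, e, f⟩ | ⟨a, b, f⟩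
        · have hk : t + 1 = K := Option.some_injective _ (a ▸ hT.1)
          rcases f with f | f <;> simp [f, ← hk, n1] at hS
        · have hk : t + 1 = K := Option.some_injective _ (a ▸ hS.1)
          rcases f with f | ⟨f, -⟩ <;> simp [f, ← hk, n1] at hT
      intro d b d' b' hg hg'
      have e1 := hoth d b hg
      have e2 := hoth d' b' hg'
      subst e1; subst e2
      refine ⟨rfl, ?_⟩
      cases b <;> cases b' <;> first | rfl | (exfalso; exact hone ⟨hg, hg'⟩) |
        (exfalso; exact hone ⟨hg', hg⟩)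

/-- parity of the forms of class `c` at a point with parities `v` -/
def par : Fin 3 → Bool × Bool → Bool
  | 0, v => v.1
  | 1, v => v.2
  | 2, v => xor v.1 v.2

lemma counting : ∀ a b : Fin 3 → Bool,
    (∀ v : Bool × Bool,
      let g : Fin 3 → Bool → Bool := fun c h =>
        if h then (if par c v then a c else b c) else (if par c v then !b c else !a c)
      (∀ c h c' h', g c h = true → g c' h' = true → c = c' ∧ h = h') ∨
        ∃ c, g c true = false ∧ g c false = false) →
    ∃ v : Bool × Bool, ∀ c, a c = !par c v ∧ b c = !a c := by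
  decide

section Step

variable (G : Fin 3 → Fin 5 → ℤ → Option (ZMod 3)) (k : ℕ)

/-- One more level. -/
lemma step_aux (hG : ∀ x, Good (fun c j => G c j (lin c j x)))
    (hk : ∀ c j, j ≠ 4 → ∀ w, Odd w → G c j (2 ^ k * w) = some (k : ZMod 3)) :
    ∃ v : ℤ × ℤ, ∀ c j, j ≠ 4 → ∀ w, Odd w →
      G c j (2 ^ (k + 1) * (lin c j v + w)) = some ((k + 1 : ℕ) : ZMod 3) := by
  obtain ⟨K, hK⟩ : ∃ K : ZMod 3, ((k + 1 : ℕ) : ZMod 3) = K := ⟨_, rfl⟩
  have hK' : (k : ZMod 3) + 1 = K := by rw [← hK]; push_cast; rfl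
  obtain ⟨Tr, hTr⟩ : ∃ Tr : Fin 3 → Fin 5 → ℤ → Prop,
      ∀ c j m, Tr c j m ↔ G c j (2 ^ (k + 1) * m) = some K :=
    ⟨fun c j m => G c j (2 ^ (k + 1) * m) = some K, fun _ _ _ => Iff.rfl⟩
  have key : ∀ c m n, Odd (m + n) →
      ((Tr c 0 m ∧ Tr c 2 (2 * n - m)) ∨ (Tr c 1 n ∧ Tr c 3 (2 * m - n))) ∧
      (Tr c 0 m → Tr c 1 n →
        (Tr c 2 (2 * n - m) ↔ Tr c 4 (3 * m - 2 * n)) ∧
        (Tr c 2 (2 * n - m) ↔ ¬ Tr c 3 (2 * m - n))) := by
    intro c m n hmn
    have h := hG (2 ^ k * (pt c m n).1, 2 ^ k * (pt c m n).2)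
    have h' := good_known h c k (by
      intro d hd j hj
      simp only [lin_mul]
      exact hk d j hj _ (lin_pt_odd c d hd m n hmn j))
    obtain ⟨l0, l1, l2, l3, l4⟩ := lin_pt c m n
    have e : ∀ z : ℤ, 2 ^ k * (2 * z) = 2 ^ (k + 1) * z := fun z => by ring
    simp only [lin_mul, l0, l1, l2, l3, l4, e, hK', ← hTr] at h'
    exact h'
  have group : ∀ (c : Fin 3) (r : ℤ),
      (∀ m, Even (m - r) → Tr c 0 m ∧ Tr c 2 m) ∨ (∀ n, Odd (n - r) → Tr c 1 n ∧ Tr c 3 n) := by
    intro c r
    by_cases hT : ∀ m, Even (m - r) → Tr c 0 m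
    swap
    · push Not at hT
      obtain ⟨m, hm, hm'⟩ := hT
      rw [Int.even_iff] at hm
      right
      intro n hn
      rw [Int.odd_iff] at hn
      constructor
      · rcases (key c m n (Int.odd_iff.2 (by omega))).1 with h | h
        · exact absurd h.1 hm'
        · exact h.1
      · rcases (key c m (2 * m - n) (Int.odd_iff.2 (by omega))).1 with h | h
        · exact absurd h.1 hm'
        · have := h.2; rwa [sub_sub_cancel] at this
    by_cases hS : ∀ n, Odd (n - r) → Tr c 1 n
    swap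
    · push Not at hS
      obtain ⟨n, hn, hn'⟩ := hS
      rw [Int.odd_iff] at hn
      left
      intro m hm
      refine ⟨hT m hm, ?_⟩
      rw [Int.even_iff] at hm
      rcases (key c (2 * n - m) n (Int.odd_iff.2 (by omega))).1 with h | h
      · have := h.2; rwa [sub_sub_cancel] at this
      · exact absurd h.1 hn'
    have rel : ∀ p s, Even (p - r) → Odd s →
        (Tr c 2 p ↔ Tr c 4 (p + 4 * s)) ∧ (Tr c 2 p ↔ ¬ Tr c 3 (p + 3 * s)) := by
      intro p s hp hs
      rw [Int.even_iff] at hp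
      rw [Int.odd_iff] at hs
      have h := (key c (p + 2 * s) (p + s) (Int.odd_iff.2 (by omega))).2
        (hT _ (Int.even_iff.2 (by omega))) (hS _ (Int.odd_iff.2 (by omega)))
      have e1 : 2 * (p + s) - (p + 2 * s) = p := by ring
      have e2 : 2 * (p + 2 * s) - (p + s) = p + 3 * s := by ring
      have e3 : 3 * (p + 2 * s) - 2 * (p + s) = p + 4 * s := by ring
      rw [e1, e2, e3] at h
      exact h
    have per : ∀ p, Even (p - r) → (Tr c 2 (p + 8) ↔ Tr c 2 p) := by
      intro p hp
      rw [Int.even_iff] at hp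
      have h1 := (rel (p + 8) (-1) (Int.even_iff.2 (by omega)) (by decide)).1
      have h2 := (rel p 1 (Int.even_iff.2 hp) (by decide)).1
      rw [h1, h2]
      ring_nf
    by_cases hP : ∀ p, Even (p - r) → Tr c 2 p
    · exact Or.inl fun m hm => ⟨hT m hm, hP m hm⟩
    push Not at hP
    obtain ⟨p, hp, hp'⟩ := hP
    right
    intro n hn
    refine ⟨hS n hn, ?_⟩
    have all : ∀ i : ℤ, ¬ Tr c 2 (p + 8 * i) := by
      intro i
      induction i using Int.induction_on with
      | zero => simpa using hp'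
      | succ i ih =>
        intro h
        apply ih
        rw [← per _ (by rw [Int.even_iff] at hp ⊢; omega)]
        rw [show p + 8 * (i : ℤ) + 8 = p + 8 * ((i : ℤ) + 1) by ring]
        exact h
      | pred i ih =>
        intro h
        apply ih
        have := (per (p + 8 * (-(i : ℤ) - 1)) (by rw [Int.even_iff] at hp ⊢; omega)).2 h
        rw [show p + 8 * (-(i : ℤ) - 1) + 8 = p + 8 * -(i : ℤ) by ring] at this
        exact this
    have h := (rel (p + 8 * (p - n)) (3 * (n - p))
      (by rw [Int.even_iff] at hp ⊢; omega)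
      (by rw [Int.even_iff] at hp; rw [Int.odd_iff] at hn ⊢; omega)).2
    have e : p + 8 * (p - n) + 3 * (3 * (n - p)) = n := by ring
    rw [e] at h
    by_contra hh
    exact all _ (h.2 hh)
  classical
  obtain ⟨a, ha⟩ : ∃ a : Fin 3 → Bool, ∀ c, if a c then (∀ m, Odd m → Tr c 0 m ∧ Tr c 2 m)
      else (∀ n, Even n → Tr c 1 n ∧ Tr c 3 n) := by
    refine Classical.skolem (p := fun c (a : Bool) => if a then (∀ m, Odd m → Tr c 0 m ∧ Tr c 2 m)
      else (∀ n, Even n → Tr c 1 n ∧ Tr c 3 n)) |>.1 fun c => ?_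
    rcases group c 1 with h | h
    · refine ⟨true, ?_⟩
      simp only [↓reduceIte]
      intro m hm
      exact h m (by rw [Int.odd_iff] at hm; rw [Int.even_iff]; omega)
    · refine ⟨false, ?_⟩
      simp only [Bool.false_eq_true, ↓reduceIte]
      intro m hm
      exact h m (by rw [Int.even_iff] at hm; rw [Int.odd_iff]; omega)
  obtain ⟨b, hb⟩ : ∃ b : Fin 3 → Bool, ∀ c, if b c then (∀ m, Even m → Tr c 0 m ∧ Tr c 2 m)
      else (∀ n, Odd n → Tr c 1 n ∧ Tr c 3 n) := by
    refine Classical.skolem (p := fun c (b : Bool) => if b then (∀ m, Even m → Tr c 0 m ∧ Tr c 2 m)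
      else (∀ n, Odd n → Tr c 1 n ∧ Tr c 3 n)) |>.1 fun c => ?_
    rcases group c 0 with h | h
    · refine ⟨true, ?_⟩
      simp only [↓reduceIte]
      intro m hm
      exact h m (by simpa using hm)
    · refine ⟨false, ?_⟩
      simp only [Bool.false_eq_true, ↓reduceIte]
      intro m hm
      exact h m (by simpa using hm)
  have parity : ∀ (c : Fin 3) (j : Fin 5) (x : ℤ × ℤ),
      Odd (lin c j x) ↔ par c (decide (Odd x.1), decide (Odd x.2)) = true := by
    intro c j x
    by_cases h1 : Odd x.1 <;> by_cases h2 : Odd x.2 <;> rw [Int.odd_iff] at * <;>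
      fin_cases c <;> fin_cases j <;> simp [lin, coef, par, Int.odd_iff, h1, h2] <;> omega
  obtain ⟨v, hv⟩ := counting a b (by
    intro v
    obtain ⟨y, hy⟩ : ∃ y : ℤ × ℤ, (decide (Odd y.1), decide (Odd y.2)) = v := by
      obtain ⟨v1, v2⟩ := v
      exact ⟨(if v1 then 1 else 0, if v2 then 1 else 0), by cases v1 <;> cases v2 <;> simp⟩
    have h := good_groups (hG (2 ^ (k + 1) * y.1, 2 ^ (k + 1) * y.2)) K
    simp only [lin_mul, ← hTr] at h
    intro g
    have imp : ∀ c h', g c h' = true →
        if h' = true then Tr c 0 (lin c 0 y) ∧ Tr c 2 (lin c 2 y)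
          else Tr c 1 (lin c 1 y) ∧ Tr c 3 (lin c 3 y) := by
      intro c h' hg
      have q := fun j => parity c j y
      rw [hy] at q
      have A := ha c
      have B := hb c
      cases hp : par c v <;> cases h' <;> simp only [g, hp, Bool.false_eq_true, ↓reduceIte,
        Bool.not_eq_true'] at hg ⊢
      all_goals simp only [hg, Bool.false_eq_true, ↓reduceIte] at A B
      all_goals simp only [hp, Bool.false_eq_true, iff_false, iff_true, Int.not_odd_iff_even] at q
      all_goals first
        | exact ⟨(A _ (q 0)).1, (A _ (q 2)).2⟩ | exact ⟨(A _ (q 1)).1, (A _ (q 3)).2⟩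
        | exact ⟨(B _ (q 0)).1, (B _ (q 2)).2⟩ | exact ⟨(B _ (q 1)).1, (B _ (q 3)).2⟩
    rcases h with h | ⟨c, hc1, hc2⟩
    · exact Or.inl fun c h₁ c' h₂ e1 e2 => h c h₁ c' h₂ (imp c h₁ e1) (imp c' h₂ e2)
    · refine Or.inr ⟨c, ?_, ?_⟩
      · by_contra e
        exact hc1 (imp c true (by simpa using e))
      · by_contra e
        exact hc2 (imp c false (by simpa using e)))
  refine ⟨(if v.1 then 1 else 0, if v.2 then 1 else 0), fun c j hj w hw => ?_⟩
  rw [hK, ← hTr]
  obtain ⟨v', hv'⟩ : ∃ z : ℤ × ℤ, z = (if v.1 then 1 else 0, if v.2 then 1 else 0) := ⟨_, rfl⟩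
  rw [← hv']
  have q := parity c j v'
  have ev : (decide (Odd v'.1), decide (Odd v'.2)) = v := by
    subst hv'
    obtain ⟨v1, v2⟩ := v
    cases v1 <;> cases v2 <;> simp
  rw [ev] at q
  obtain ⟨e1, e2⟩ := hv c
  have A := ha c
  have B := hb c
  cases hp : par c v
  · rw [hp] at e1 q
    rw [e1] at A e2
    simp only [Bool.not_false, ↓reduceIte] at A e2
    rw [e2] at B
    simp only [Bool.not_true, Bool.false_eq_true, ↓reduceIte] at B
    have hodd : Odd (lin c j v' + w) := by
      have : Even (lin c j v') := Int.not_odd_iff_even.1 (by simp [q])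
      exact this.add_odd hw
    fin_cases j
    · exact (A _ hodd).1
    · exact (B _ hodd).1
    · exact (A _ hodd).2
    · exact (B _ hodd).2
    · exact absurd rfl hj
  · rw [hp] at e1 q
    rw [e1] at A e2
    simp only [Bool.not_true, Bool.false_eq_true, ↓reduceIte] at A e2
    rw [e2] at B
    simp only [Bool.not_false, ↓reduceIte] at B
    have hev : Even (lin c j v' + w) := (q.2 rfl).add_odd hw
    fin_cases j
    · exact (B _ hev).1
    · exact (A _ hev).1
    · exact (B _ hev).2
    · exact (A _ hev).2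
    · exact absurd rfl hj

end Step

/-- A solution of the system. The clock is a translate of the parity of the second coordinate. -/
theorem no_periodic (F : Fin 3 → Fin 5 → ℤ → Option (ZMod 3)) (e₀ e₂ : ℤ → Bool) (κ : ℤ)
    (h : ∀ x : ℤ × ℤ, Rel (fun c j => F c j (lin c j x)) (e₀ x.1) (e₂ (x.1 + x.2))
      (decide (Odd (x.2 + κ))))
    (P : ℤ) (hP : 0 < P) : ¬ ∀ m, F 2 0 (m + P) = F 2 0 m := by
  intro hper
  have pr : ∀ a b : ℤ, decide (Odd (a + b)) = xor (decide (Odd a)) (decide (Odd b)) := by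
    intro a b
    by_cases hs : Odd (a + b) <;> by_cases ha : Odd a <;> by_cases hb : Odd b <;>
      simp [hs, ha, hb] <;> rw [Int.odd_iff] at * <;> omega
  obtain ⟨ρ, hρ⟩ : ∃ ρ : ℤ, decide (Odd ρ) = e₀ 0 :=
    ⟨if e₀ 0 then 1 else 0, by cases e₀ 0 <;> simp⟩
  have h2 : ∀ m, e₂ m = decide (Odd (m + (ρ + κ))) := by
    intro m
    have := (h (0, m)).2.1
    simp only [zero_add] at this
    rw [this, ← hρ]
    simp only [pr]
    cases decide (Odd m) <;> cases decide (Odd ρ) <;> cases decide (Odd κ) <;> rfl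
  have h0 : ∀ a, e₀ a = decide (Odd (a + ρ)) := by
    intro a
    have := (h (a, -a)).2.1
    simp only [add_neg_cancel] at this
    rw [h2] at this
    simp only [zero_add, pr] at this
    simp only [pr]
    have hneg : decide (Odd (-a)) = decide (Odd a) := by simp
    rw [hneg] at this
    revert this
    cases e₀ a <;> cases decide (Odd a) <;> cases decide (Odd ρ) <;> cases decide (Odd κ) <;> simp
  have inv : ∀ k : ℕ, ∃ u : ℤ × ℤ, ∀ i ≤ k, ∀ c j, j ≠ 4 → ∀ w, Odd w →
      F c j (lin c j u + 2 ^ i * w) = some (i : ZMod 3) := by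
    intro k
    induction k with
    | zero =>
      refine ⟨(ρ, κ), fun i hi c j hj w hw => ?_⟩
      obtain rfl : i = 0 := by omega
      rw [Int.odd_iff] at hw
      simp only [pow_zero, one_mul, Nat.cast_zero]
      generalize hm : lin c j (ρ, κ) + w = m
      fin_cases c
      · obtain ⟨-, -, hX, -, -⟩ := h (m, 0)
        have e : lin 0 j (m, 0) = m := by fin_cases j <;> simp [lin, coef]
        have := hX (by
          rw [h0]; simp only [decide_eq_true_eq, Int.odd_iff]
          fin_cases j <;> simp [lin, coef] at hm <;> omega) j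
        simp only [e] at this
        exact this
      · obtain ⟨-, -, -, hY, -⟩ := h (0, m)
        have e : lin 1 j (0, m) = m := by fin_cases j <;> simp [lin, coef]
        have := hY (by
          simp only [decide_eq_true_eq, Int.odd_iff]
          fin_cases j <;> simp [lin, coef] at hm <;> omega) j
        simp only [e] at this
        exact this
      · obtain ⟨-, -, -, -, hT⟩ := h (m, 0)
        have e : lin 2 j (m, 0) = m := by fin_cases j <;> simp [lin, coef]
        have := hT (by
          rw [h2]; simp only [decide_eq_true_eq, Int.odd_iff]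
          fin_cases j <;> simp [lin, coef] at hm <;> omega) j
        simp only [e] at this
        exact this
    | succ k ih =>
      obtain ⟨u, hu⟩ := ih
      obtain ⟨v, hv⟩ := step_aux (fun c j m => F c j (lin c j u + m)) k
        (fun x => by simpa only [← lin_add] using (h (u + x)).1) (fun c j hj w hw => hu k le_rfl c j hj w hw)
      refine ⟨u + (2 ^ (k + 1) * v.1, 2 ^ (k + 1) * v.2), fun i hi c j hj w hw => ?_⟩
      rw [lin_add, lin_mul]
      rcases Nat.lt_or_eq_of_le hi with hi | rfl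
      · have e : lin c j u + 2 ^ (k + 1) * lin c j v + 2 ^ i * w
            = lin c j u + 2 ^ i * (w + 2 ^ (k + 1 - i) * lin c j v) := by
          rw [mul_add, ← mul_assoc, ← pow_add, show i + (k + 1 - i) = k + 1 by omega]; ring
        rw [e]
        apply hu i (by omega) c j hj
        have : Even (2 ^ (k + 1 - i) * lin c j v) :=
          (Int.even_pow.2 ⟨by decide, by omega⟩).mul_right _
        exact hw.add_even this
      · rw [add_assoc, ← mul_add]
        exact hv c j hj w hw
  obtain ⟨a, w, hw, hPw⟩ : ∃ (a : ℕ) (w : ℤ), Odd w ∧ P = 2 ^ a * w := by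
    obtain ⟨a, w, hw, h'⟩ := Nat.exists_eq_two_pow_mul_odd (n := P.natAbs) (by omega)
    refine ⟨a, w, by exact_mod_cast hw, ?_⟩
    have : (P.natAbs : ℤ) = P := Int.natAbs_of_nonneg hP.le
    rw [← this, h']; push_cast; rfl
  obtain ⟨u, hu⟩ := inv (a + 1)
  have e1 := hu (a + 1) le_rfl 2 0 (by decide) 1 odd_one
  have e2 := hu a (by omega) 2 0 (by decide) (w + 2) (hw.add_even even_two)
  have := hper (lin 2 0 u + 2 ^ (a + 1) * 1)
  rw [e1, show lin 2 0 u + 2 ^ (a + 1) * 1 + P = lin 2 0 u + 2 ^ a * (w + 2) by rw [hPw]; ring,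
    e2] at this
  have e := Option.some_injective _ this
  push_cast at e
  revert e
  generalize (a : ZMod 3) = z
  revert z
  decide

end Vale.Agent.P043
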