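import Mathlib

/-!
P043: one tiling equation for an invariance, one for a disjunction of any length.

A section of a finite group `G` over `X × ℤ` is recorded by a function `a : X → ℤ → G`; an equation
is a finite family of shifts `t j` and subsets `W j` of `G`, and it holds when for every point and
every `g` exactly one `j` has `g + a (shifted point) ∈ W j`.
-/

namespace Vale.Agent.P043

variable {X G : Type*} [AddCommGroup X] [AddCommGroup G]

/-- the section `a` solves the equation with shifts `t` and pieces `W` -/
def EqSol {J : Type*} (a : X → ℤ → G) (t : J → X × ℤ) (W : J → G → Prop) : Prop :=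
  ∀ x y g, ∃! j, W j (g + a (x + (t j).1) (y + (t j).2))

/-- shifts of the invariance equation -/
def invShift (v : X) (s : ℤ) : Bool → X × ℤ
  | false => (0, 0)
  | true => (v, s)

/-- pieces of the invariance equation -/
def invPiece {P : Type*} [AddCommGroup P] (π : G →+ P) (κ : P) : Bool → G → Prop
  | false, w => π w = 0
  | true, w => π w ≠ κ

lemma inv_iff {P : Type*} [AddCommGroup P] (π : G →+ P) (κ : P) (v : X) (s : ℤ)
    (a : X → ℤ → G) :
    EqSol a (invShift v s) (invPiece π κ) ↔ ∀ x y, π (a (x + v) (y + s)) = π (a x y) + κ := by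
  constructor
  · intro h x y
    obtain ⟨j, -, hu⟩ := h x y (-(a x y))
    have h0 : invPiece π κ false (-(a x y) + a (x + 0) (y + 0)) := by
      simp [invPiece]
    by_contra hne
    have h1 : invPiece π κ true (-(a x y) + a (x + v) (y + s)) := by
      simp only [invPiece, map_add, map_neg]
      intro e
      apply hne
      rw [← e]; abel
    have := (hu false h0).trans (hu true h1).symm
    simp at this
  · intro h x y g
    have e : π (g + a (x + v) (y + s)) = π (g + a x y) + κ := by
      rw [map_add, map_add, h]; abel
    by_cases hc : π (g + a x y) = 0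
    · refine ⟨false, by simpa [invShift, invPiece] using hc, fun j hj => ?_⟩
      cases j
      · rfl
      · exfalso; simp only [invShift, invPiece, e, hc, zero_add, ne_eq, not_true] at hj
    · refine ⟨true, ?_, fun j hj => ?_⟩
      · simp only [invShift, invPiece, e]
        simpa using hc
      · cases j
        · exfalso; simp [invShift, invPiece] at hj; exact hc (by simpa using hj)
        · rfl

lemma inv_iterate {P : Type*} [AddCommGroup P] (π : G →+ P) (κ : P) (v : X) (s : ℤ)
    (a : X → ℤ → G) (h : ∀ x y, π (a (x + v) (y + s)) = π (a x y) + κ) :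
    ∀ (k : ℤ) x y, π (a (x + k • v) (y + k * s)) = π (a x y) + k • κ := by
  intro k
  induction k using Int.induction_on with
  | zero => intro x y; simp
  | succ i ih =>
    intro x y
    rw [add_smul, one_smul, add_mul, one_mul, ← add_assoc, ← add_assoc, h, ih, add_smul, one_smul]
    abel
  | pred i ih =>
    intro x y
    have := h (x + (-(i : ℤ) - 1) • v) (y + (-(i : ℤ) - 1) * s)
    rw [add_assoc x, ← add_one_zsmul, sub_add_cancel, add_assoc y] at this
    rw [show (-(i : ℤ) - 1) * s + s = -(i : ℤ) * s by ring, ih] at this
    rw [sub_smul, one_smul, sub_smul, one_smul]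
    rw [sub_smul, one_smul] at this
    rw [eq_comm, ← eq_sub_iff_add_eq] at this
    rw [this]; abel

section Clause

variable {n : ℕ} {P : Fin (n + 1) → Type*} [∀ i, AddCommGroup (P i)]

/-- shifts of the disjunction equation -/
def orShift (e : Fin (n + 1) → ℤ) (ε : Fin (n + 1) → Bool) : X × ℤ :=
  (0, ∑ i, if ε i then e i else 0)

/-- pieces of the disjunction equation -/
def orPiece (π : ∀ i, G →+ P i) (τ : ∀ i, P i) (ε : Fin (n + 1) → Bool) (w : G) : Prop :=
  ∀ i, (π i w = (if ε i then τ i else 0)) ↔ ε (i + 1) = true

/-- A cycle of maps of a two-point set, one of them constant, has exactly one closed orbit. -/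
lemma cycle_unique (φ : Fin (n + 1) → Bool → Bool) (j : Fin (n + 1)) (hj : ∀ b, φ j b = φ j false) :
    ∃! ε : Fin (n + 1) → Bool, ∀ i, ε (i + 1) = φ i (ε i) := by
  let f : ℕ → Bool := fun k =>
    Nat.rec (φ j false) (fun k b => φ (j + 1 + (Fin.ofNat (n + 1) k)) b) k
  have hlt : ∀ i : Fin (n + 1), i ≠ j →
      ((i + 1 - (j + 1) : Fin (n + 1)) : ℕ) = ((i - (j + 1) : Fin (n + 1)) : ℕ) + 1 := by
    intro i hi
    have e : i + 1 - (j + 1) = i - (j + 1) + 1 := by abel
    rw [e, Fin.val_add_one, if_neg]
    intro hl
    apply hi
    have : i - (j + 1) + 1 = 0 := by rw [hl]; simp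
    rw [← e, sub_eq_zero] at this
    exact add_right_cancel this
  refine ⟨fun i => f ((i - (j + 1) : Fin (n + 1)) : ℕ), fun i => ?_, fun ε hε => funext fun i => ?_⟩
  · by_cases hi : i = j
    · subst hi
      simp [f, hj]
    · simp only [hlt i hi]
      show φ _ _ = _
      congr 1
      rw [Fin.ofNat_val_eq_self]; abel
  · suffices h : ∀ k : ℕ, k ≤ n → ε (j + 1 + Fin.ofNat (n + 1) k) = f k by
      have := h ((i - (j + 1) : Fin (n + 1)) : ℕ) (Nat.lt_succ_iff.1 (Fin.is_lt _))
      rw [Fin.ofNat_val_eq_self, add_sub_cancel] at this
      exact this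
    intro k
    induction k with
    | zero =>
      intro _
      have := hε j
      rw [hj] at this
      simpa [f] using this
    | succ k ih =>
      intro hk
      have e : j + 1 + Fin.ofNat (n + 1) (k + 1) = j + 1 + Fin.ofNat (n + 1) k + 1 := by
        rw [add_assoc (j + 1)]
        congr 1
        apply Fin.ext
        simp [Fin.val_add, Nat.add_mod]
      rw [e, hε, ih (by omega)]

variable (π : ∀ i, G →+ P i) (τ : ∀ i, P i) (e : Fin (n + 1) → ℤ) (a : X → ℤ → G)

lemma or_iff
    (hinv : ∀ (ε : Fin (n + 1) → Bool) i x y,
      π i (a x (y + ∑ k, if ε k then e k else 0)) = π i (a x (y + if ε i then e i else 0)))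
    (hsurj : ∀ f : ∀ i, P i, ∃ g, ∀ i, π i g = f i) :
    EqSol a (orShift (X := X) e) (orPiece π τ) ↔
      ∀ x y, ∃ i, π i (a x (y + e i)) - π i (a x y) = τ i := by
  classical
  have red : ∀ x y g (ε : Fin (n + 1) → Bool),
      orPiece π τ ε (g + a (x + (orShift (X := X) e ε).1) (y + (orShift (X := X) e ε).2)) ↔
        ∀ i, ε (i + 1) =
          decide (π i g + π i (a x (y + if ε i then e i else 0)) = if ε i then τ i else 0) := by
    intro x y g ε
    simp only [orPiece, orShift, add_zero, map_add, hinv]
    refine forall_congr' fun i => ?_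
    generalize (π i g + π i (a x (y + if ε i then e i else 0)) = if ε i then τ i else 0) = p
    cases ε (i + 1) <;> simp
  constructor
  · intro h x y
    by_contra hno
    push Not at hno
    obtain ⟨g, hg⟩ := hsurj fun i =>
      if i = Fin.last n then - π i (a x y) else τ i - π i (a x (y + e i))
    obtain ⟨ε, hε, -⟩ := h x y g
    rw [red] at hε
    have step : ∀ i : Fin (n + 1),
        ε (i + 1) = if i = Fin.last n then !ε i else ε i := by
      intro i
      rw [hε i, hg i]
      have hne := hno i
      by_cases hl : i = Fin.last n <;> cases ε i <;> simp only [hl, ↓reduceIte,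
        Bool.false_eq_true, Bool.not_false, Bool.not_true, add_zero]
      · subst hl; simp
      · subst hl
        simp only [decide_eq_false_iff_not]
        intro hh
        exact hne (by rw [← hh]; abel)
      · simp only [decide_eq_false_iff_not]
        intro hh
        apply hne
        rw [← sub_eq_zero, ← neg_eq_zero, ← hh]; abel
      · simp
    have const : ∀ k : ℕ, (hk : k ≤ n) → ε ⟨k, by omega⟩ = ε 0 := by
      intro k
      induction k with
      | zero => intro _; rfl
      | succ k ih =>
        intro hk
        have e1 := step ⟨k, by omega⟩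
        rw [if_neg (fun hh => by simp [Fin.ext_iff] at hh; omega), ih (by omega)] at e1
        convert e1 using 2
        apply Fin.ext
        simp [Fin.val_add_one, Fin.ext_iff]
        omega
    have e1 := step (Fin.last n)
    rw [if_pos rfl, Fin.last_add_one] at e1
    have e2 : ε (Fin.last n) = ε 0 := const n le_rfl
    rw [e2] at e1
    cases ε 0 <;> simp at e1
  · intro h x y g
    simp only [red]
    obtain ⟨j, hj⟩ := h x y
    apply cycle_unique (fun i b =>
      decide (π i g + π i (a x (y + if b then e i else 0)) = if b then τ i else 0)) j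
    intro b
    cases b
    · rfl
    · simp only [↓reduceIte, Bool.false_eq_true, add_zero, decide_eq_decide]
      rw [← hj]
      constructor <;> intro hh
      · rw [← sub_eq_zero] at hh
        rw [← hh]; abel
      · rw [← sub_eq_zero, ← hh]; abel

end Clause

end Vale.Agent.P043
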