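import Mathlib
import Vale.Agent.P043.Gadget

/-!
P043: the quotient group, sections, and the translation between equations and tilings.
-/

namespace Vale.Agent.P043

/-- `E` tiles with the set `A`: every element is in exactly one translate, counted by index. -/
def Covers {Γ ι : Type*} [AddCommGroup Γ] (A : Set Γ) (E : ι → Γ) : Prop :=
  ∀ γ, ∃! i, γ - E i ∈ A

variable (R : ℕ)

/-- the group `ℤ² × ℤ/4R × ℤ/2R` -/
abbrev Gam : Type := (ℤ × ℤ) × (ZMod (4 * R) × ZMod (2 * R))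

/-- the fibre group -/
abbrev Fib : Type := ZMod 2 × ZMod (2 * R)

/-- the point `(x, (y, 0))` -/
def pnt (x : ℤ × ℤ) (y : ℤ) : Gam R := (x, ((y : ZMod (4 * R)), 0))

/-- multiples of `2 R` in `ℤ/4R` -/
def halfHom : ZMod 2 →+ ZMod (4 * R) :=
  ZMod.lift 2 ⟨(Int.castAddHom (ZMod (4 * R))).comp (AddMonoidHom.mulRight (2 * R : ℤ)), by
    show ((((2 : ℕ) : ℤ) * (2 * R : ℤ) : ℤ) : ZMod (4 * R)) = 0
    rw [ZMod.intCast_zmod_eq_zero_iff_dvd]
    exact ⟨1, by push_cast; ring⟩⟩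

lemma halfHom_int (k : ℤ) : halfHom R (k : ZMod 2) = ((k * (2 * R) : ℤ) : ZMod (4 * R)) := by
  simp only [halfHom, ZMod.lift_coe]
  rfl

/-- embedding of the fibre group -/
def emb : Fib R →+ Gam R where
  toFun g := (0, (halfHom R g.1, g.2))
  map_zero' := by simp
  map_add' a b := by simp

lemma pnt_add (x v : ℤ × ℤ) (y s : ℤ) : pnt R (x + v) (y + s) = pnt R x y + pnt R v s := by
  simp [pnt]

lemma decomp (γ : Gam R) : ∃ x y g, γ = pnt R x y + emb R g := by
  obtain ⟨x, Y, Z⟩ := γ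
  obtain ⟨y, rfl⟩ := ZMod.intCast_surjective Y
  exact ⟨x, y, (0, Z), by simp [pnt, emb]⟩

lemma pnt_eq {x x' : ℤ × ℤ} {y y' : ℤ} {g g' : Fib R}
    (h : pnt R x y + emb R g = pnt R x' y' + emb R g') :
    ∃ k : ℤ, x' = x ∧ y' = y + 2 * R * k ∧ g' = g - ((k : ZMod 2), 0) := by
  obtain ⟨g1, g2⟩ := g
  obtain ⟨g1', g2'⟩ := g'
  obtain ⟨d, rfl⟩ := ZMod.intCast_surjective g1
  obtain ⟨d', rfl⟩ := ZMod.intCast_surjective g1'
  simp only [pnt, emb, AddMonoidHom.coe_mk, ZeroHom.coe_mk, Prod.mk_add_mk, add_zero, zero_add,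
    halfHom_int, Prod.mk.injEq] at h
  obtain ⟨hx, hy, hz⟩ := h
  rw [← Int.cast_add, ← Int.cast_add, ← sub_eq_zero, ← Int.cast_sub,
    ZMod.intCast_zmod_eq_zero_iff_dvd] at hy
  obtain ⟨l, hl⟩ := hy
  push_cast at hl
  refine ⟨d - d' - 2 * l, hx.symm, by linear_combination -hl, ?_⟩
  ext
  · have : (2 : ZMod 2) = 0 := rfl
    simp [this]
  · simp [hz]

/-- `a` records, for each point of the base, the element of `A` over it -/
def HasSection (A : Set (Gam R)) (a : ℤ × ℤ → ℤ → Fib R) : Prop :=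
  ∀ x y g, pnt R x y - emb R g ∈ A ↔ g = a x y

lemma base_covers_iff (A : Set (Gam R)) :
    Covers A (fun g : Fib R => emb R g) ↔ ∃ a, HasSection R A a := by
  constructor
  · intro h
    choose a ha hu using fun x y => (h (pnt R x y))
    exact ⟨a, fun x y g => ⟨fun hg => hu x y g hg, fun e => e ▸ ha x y⟩⟩
  · rintro ⟨a, ha⟩ γ
    obtain ⟨x, y, g₀, rfl⟩ := decomp R γ
    refine ⟨a x y + g₀, ?_, fun g hg => ?_⟩
    · show _ ∈ A
      have : pnt R x y + emb R g₀ - emb R (a x y + g₀) = pnt R x y - emb R (a x y) := by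
        rw [map_add]; abel
      rw [this, ha]
    · have e : pnt R x y + emb R g₀ - emb R g = pnt R x y - emb R (g - g₀) := by
        rw [map_sub]; abel
      simp only [e] at hg
      rw [← (ha x y (g - g₀)).1 hg, sub_add_cancel]

/-- the set of a section satisfying the covariance has that section -/
lemma hasSection_range (a : ℤ × ℤ → ℤ → Fib R)
    (hcov : ∀ x y (k : ℤ), a x (y + 2 * R * k) = a x y + ((k : ZMod 2), 0)) :
    HasSection R {γ | ∃ x y, γ = pnt R x y - emb R (a x y)} a := by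
  intro x y g
  refine ⟨?_, fun e => ⟨x, y, by rw [e]⟩⟩
  rintro ⟨x', y', e⟩
  obtain ⟨k, hx, hy, hg⟩ := pnt_eq R (g := -g) (g' := -(a x' y')) (by
    rw [map_neg, map_neg, ← sub_eq_add_neg, ← sub_eq_add_neg]; exact e)
  rw [hx, hy, hcov] at hg
  rw [neg_eq_iff_eq_neg, neg_sub, eq_comm, sub_eq_iff_eq_add', add_comm] at hg
  rw [add_comm] at hg
  calc g = (a x y + ((k : ZMod 2), (0 : ZMod (2 * R)))) - ((k : ZMod 2), 0) := by
        rw [← sub_eq_zero]
        have := hg
        rw [← sub_eq_zero] at this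
        rw [← this]; abel
    _ = a x y := by abel

/-- the cells of an equation -/
def cells {J : Type*} (t : J → (ℤ × ℤ) × ℤ) (W : J → Fib R → Prop) :
    (Σ j, {w // W j w}) → Gam R :=
  fun c => emb R c.2.1 - pnt R (t c.1).1 (t c.1).2

lemma covers_cells_iff {A : Set (Gam R)} {a : ℤ × ℤ → ℤ → Fib R} (ha : HasSection R A a)
    {J : Type*} (t : J → (ℤ × ℤ) × ℤ) (W : J → Fib R → Prop) :
    Covers A (cells R t W) ↔ EqSol a t W := by
  have key : ∀ x y g (c : Σ j, {w // W j w}),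
      pnt R x y + emb R g - cells R t W c ∈ A ↔
        c.2.1 = g + a (x + (t c.1).1) (y + (t c.1).2) := by
    intro x y g c
    have e : pnt R x y + emb R g - cells R t W c
        = pnt R (x + (t c.1).1) (y + (t c.1).2) - emb R (c.2.1 - g) := by
      simp only [cells, pnt_add, map_sub]; abel
    rw [e, ha, sub_eq_iff_eq_add']
  constructor
  · intro h x y g
    obtain ⟨c, hc, hu⟩ := h (pnt R x y + emb R g)
    rw [key] at hc
    refine ⟨c.1, by simpa only [← hc] using c.2.2, fun j hj => ?_⟩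
    exact congrArg Sigma.fst (hu ⟨j, ⟨_, hj⟩⟩ ((key x y g _).2 rfl))
  · intro h γ
    obtain ⟨x, y, g, rfl⟩ := decomp R γ
    obtain ⟨j, hj, hu⟩ := h x y g
    refine ⟨⟨j, ⟨_, hj⟩⟩, (key x y g _).2 rfl, ?_⟩
    rintro ⟨j', w, hw⟩ hc
    rw [key] at hc
    simp only at hc
    obtain rfl := hu j' (by simpa only [← hc] using hw)
    subst hc
    rfl

end Vale.Agent.P043
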