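import Mathlib

/-!
P043: a dented cube in `ℝ^d` all of whose exact translational tilings are cubic grids.
-/

namespace Vale.Agent.P043

variable {d : ℕ}

/-- the side of the cube -/
def rside (d : ℕ) : ℝ := 2 * d + 6

/-- lower corner of a dent -/
def dentLo (j k : Fin d) : ℝ :=
  if (k : ℕ) = 0 then 1 else if (k : ℕ) = 1 then 2 + 2 * (j : ℕ) else 2

/-- extent of a dent -/
def dentLen (j k : Fin d) : ℝ := if (k : ℕ) = 0 then d + 1 + (j : ℕ) else 1

/-- the dent on axis `j` -/
def InDent (j : Fin d) (x : Fin d → ℝ) : Prop :=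
  ∀ k, dentLo j k ≤ x k ∧ x k < dentLo j k + dentLen j k

/-- the cube without its dents -/
def InCore (x : Fin d → ℝ) : Prop :=
  (∀ k, 0 ≤ x k ∧ x k < rside d) ∧ ∀ j, ¬ InDent j x

/-- the shift along axis `j` -/
noncomputable def axisVec (j : Fin d) : Fin d → ℝ := Pi.single j (rside d)

/-- the dented cube with bumps -/
def InCube (x : Fin d → ℝ) : Prop := InCore x ∨ ∃ j, InDent j (x - axisVec j)

lemma dent_bounds (j k : Fin d) :
    1 ≤ dentLo j k ∧ 1 ≤ dentLen j k ∧ dentLo j k + dentLen j k ≤ rside d - 2 := by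
  have hj : (j : ℕ) + 1 ≤ d := j.isLt
  have hj' : ((j : ℕ) : ℝ) + 1 ≤ (d : ℝ) := by exact_mod_cast hj
  have h0 : (0 : ℝ) ≤ ((j : ℕ) : ℝ) := Nat.cast_nonneg _
  unfold dentLo dentLen rside
  split_ifs <;> refine ⟨?_, ?_, ?_⟩ <;> linarith

lemma dent_cube {j : Fin d} {x : Fin d → ℝ} (h : InDent j x) :
    ∀ k, 0 ≤ x k ∧ x k < rside d := fun k => by
  have := dent_bounds j k
  constructor <;> linarith [(h k).1, (h k).2]

lemma bump_far {j : Fin d} {x : Fin d → ℝ} (h : InDent j (x - axisVec j)) :
    rside d ≤ x j ∧ ∀ k, k ≠ j → x k < rside d := by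
  refine ⟨?_, fun k hk => ?_⟩
  · have := (dent_cube h j).1
    simp [axisVec] at this
    exact this
  · have := (dent_cube h k).2
    simpa [axisVec, hk] using this

lemma dent_not_cube {j : Fin d} {x : Fin d → ℝ} (h : InDent j x) : ¬ InCube x := by
  rintro (hc | ⟨i, hi⟩)
  · exact hc.2 j h
  · linarith [(bump_far hi).1, (dent_cube h i).2]

lemma bump_axis_eq {i j : Fin d} {x : Fin d → ℝ} (h : InDent i (x - axisVec i))
    (h' : InDent j (x - axisVec j)) : i = j := by
  by_contra hne
  linarith [(bump_far h).1, (bump_far h').2 i hne]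

lemma dent_row_inj {i j : Fin d} {x : Fin d → ℝ} (hd : 3 ≤ d) (h : InDent i x)
    (h' : InDent j x) : i = j := by
  have a := h ⟨1, by omega⟩
  have b := h' ⟨1, by omega⟩
  simp only [dentLo, dentLen, one_ne_zero, ↓reduceIte] at a b
  apply Fin.ext
  by_contra hne
  rcases lt_or_gt_of_ne hne with hlt | hlt
  · have : ((i : ℕ) : ℝ) + 1 ≤ ((j : ℕ) : ℝ) := by exact_mod_cast hlt
    linarith
  · have : ((j : ℕ) : ℝ) + 1 ≤ ((i : ℕ) : ℝ) := by exact_mod_cast hlt
    linarith

lemma core_of_level (hd : 3 ≤ d) {x : Fin d → ℝ} (h : ∀ k, 0 ≤ x k ∧ x k < rside d)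
    (h2 : x ⟨2, by omega⟩ < 2 ∨ 3 ≤ x ⟨2, by omega⟩) : InCore x := by
  refine ⟨h, fun j hj => ?_⟩
  have a := hj ⟨2, by omega⟩
  simp [dentLo, dentLen] at a
  rcases h2 with h2 | h2 <;> linarith

/-- exact covering of every point by translates of the dented cube -/
def ExactR (P : Set (Fin d → ℝ)) : Prop := ∀ z, ∃! p, p ∈ P ∧ InCube (z - p)

lemma core_beside {j : Fin d} {c : Fin d → ℝ} (hd : 3 ≤ d) (hc : InDent j c) (k : Fin d) (t : ℝ)
    (ht : 0 ≤ t ∧ t < rside d)
    (hout : (t < dentLo j k ∧ dentLo j k - 1 ≤ t) ∨ t = dentLo j k + dentLen j k) :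
    InCore (Function.update c k t) := by
  refine ⟨fun i => ?_, fun i hi => ?_⟩
  · by_cases h : i = k
    · subst h; simpa using ht
    · simpa [Function.update_of_ne h] using dent_cube hc i
  · have hk := hi k
    rw [Function.update_self] at hk
    by_cases h1 : (k : ℕ) = 1
    · have h0 : (k : ℕ) ≠ 0 := by omega
      simp only [dentLo, dentLen, h0, h1, one_ne_zero, ↓reduceIte] at hk hout
      rcases lt_trichotomy (i : ℕ) (j : ℕ) with hlt | heq | hlt
      · have : ((i : ℕ) : ℝ) + 1 ≤ ((j : ℕ) : ℝ) := by exact_mod_cast hlt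
        rcases hout with ⟨u, v⟩ | u <;> linarith
      · rw [heq] at hk
        rcases hout with ⟨u, v⟩ | u <;> linarith
      · have : ((j : ℕ) : ℝ) + 1 ≤ ((i : ℕ) : ℝ) := by exact_mod_cast hlt
        rcases hout with ⟨u, v⟩ | u <;> linarith
    · have e : i = j := by
        have a := hi ⟨1, by omega⟩
        rw [Function.update_of_ne (fun h => h1 (by rw [← h]))] at a
        have b := hc ⟨1, by omega⟩
        simp only [dentLo, dentLen, one_ne_zero, ↓reduceIte] at a b
        apply Fin.ext
        by_contra hne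
        rcases lt_or_gt_of_ne hne with hlt | hlt
        · have : ((i : ℕ) : ℝ) + 1 ≤ ((j : ℕ) : ℝ) := by exact_mod_cast hlt
          linarith
        · have : ((j : ℕ) : ℝ) + 1 ≤ ((i : ℕ) : ℝ) := by exact_mod_cast hlt
          linarith
      subst e
      rcases hout with ⟨u, -⟩ | u <;> linarith

variable {P : Set (Fin d → ℝ)}

lemma exactR_unique (hP : ExactR P) {z p q : Fin d → ℝ} (hp : p ∈ P) (hq : q ∈ P)
    (h1 : InCube (z - p)) (h2 : InCube (z - q)) : p = q :=
  (hP z).unique ⟨hp, h1⟩ ⟨hq, h2⟩

/-- the cover of a point of a dent is a bump box lying inside the dent -/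
lemma dent_cover (hd : 3 ≤ d) (hP : ExactR P) {p : Fin d → ℝ} (hp : p ∈ P) {j : Fin d}
    {c : Fin d → ℝ} (hc : InDent j c) :
    ∃ q ∈ P, ∃ (i : Fin d) (w : Fin d → ℝ), w = p + c - q - axisVec i ∧ InDent i w ∧
      ∀ k, dentLo j k ≤ c k - w k + dentLo i k ∧
        c k - w k + dentLo i k + dentLen i k ≤ dentLo j k + dentLen j k := by
  obtain ⟨q, ⟨hq, hs⟩, -⟩ := hP (p + c)
  have hne : q ≠ p := by
    rintro rfl
    rw [add_sub_cancel_left] at hs
    exact dent_not_cube hc hs
  rcases hs with hb | ⟨i, hi⟩
  · exfalso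
    obtain ⟨e2, he2⟩ : ∃ e2 : Fin d, e2 = ⟨2, by omega⟩ := ⟨_, rfl⟩
    have hb2 := hb.1 e2
    have hc2 := hc e2
    have hl : dentLo j e2 = 2 ∧ dentLen j e2 = 1 := by simp [he2, dentLo, dentLen]
    rw [hl.1, hl.2] at hc2
    have hM : (6 : ℝ) ≤ rside d := by
      have : (0 : ℝ) ≤ (d : ℝ) := Nat.cast_nonneg _
      unfold rside; linarith
    obtain ⟨δ, hδ, hok⟩ : ∃ δ : ℝ, (δ = 1 ∨ δ = -1) ∧
        InCore (p + Function.update c e2 (c e2 + δ) - q) := by
      simp only [Pi.sub_apply, Pi.add_apply] at hb2
      by_cases hlev : (1 ≤ p e2 + c e2 - q e2 ∧ p e2 + c e2 - q e2 < 2) ∨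
          rside d - 1 ≤ p e2 + c e2 - q e2
      · refine ⟨-1, Or.inr rfl, core_of_level hd (fun k => ?_) ?_⟩
        · by_cases hk : k = e2
          · subst hk; simp; rcases hlev with ⟨u, v⟩ | u <;> constructor <;> linarith
          · have := hb.1 k
            simpa [Function.update_of_ne hk] using this
        · rw [← he2]
          simp
          rcases hlev with ⟨u, v⟩ | u
          · left; linarith
          · right; linarith
      · push Not at hlev
        refine ⟨1, Or.inl rfl, core_of_level hd (fun k => ?_) ?_⟩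
        · by_cases hk : k = e2
          · subst hk; simp; constructor <;> linarith [hlev.2]
          · have := hb.1 k
            simpa [Function.update_of_ne hk] using this
        · rw [← he2]
          simp
          by_cases h1 : 1 ≤ p e2 + c e2 - q e2
          · right; linarith [hlev.1 h1]
          · left; push Not at h1; linarith
    apply hne
    refine exactR_unique hP hq hp (Or.inl hok) (Or.inl ?_)
    rw [add_sub_cancel_left]
    refine core_of_level hd (fun k => ?_) ?_
    · by_cases hk : k = e2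
      · subst hk; simp; rcases hδ with rfl | rfl <;> constructor <;> linarith
      · simpa [Function.update_of_ne hk] using dent_cube hc k
    · rw [← he2]
      simp
      rcases hδ with rfl | rfl
      · right; linarith
      · left; linarith
  · obtain ⟨w, hw⟩ : ∃ w, w = p + c - q - axisVec i := ⟨_, rfl⟩
    rw [← hw] at hi
    refine ⟨q, hq, i, w, hw, hi, fun k => ?_⟩
    have bk := dent_bounds i k
    have bj := dent_bounds j k
    have hik := hi k
    have hck := hc k
    have along : ∀ t, dentLo i k ≤ c k - (c k - w k) + t → c k - (c k - w k) + t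
        < dentLo i k + dentLen i k →
        ((c k + t < dentLo j k ∧ dentLo j k - 1 ≤ c k + t) ∨
          c k + t = dentLo j k + dentLen j k) → False := by
      intro t t1 t2 hout
      apply hne
      refine exactR_unique (z := p + Function.update c k (c k + t)) hP hq hp (Or.inr ⟨i, ?_⟩)
        (Or.inl ?_)
      · have e : p + Function.update c k (c k + t) - q - axisVec i
            = Function.update w k (w k + t) := by
          funext l
          by_cases hl : l = k
          · subst hl; simp [hw]; ring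
          · simp [Function.update_of_ne hl, hw]
        rw [e]
        intro l
        by_cases hl : l = k
        · subst hl; simp; constructor <;> linarith
        · simpa [Function.update_of_ne hl] using hi l
      · rw [add_sub_cancel_left]
        apply core_beside hd hc k _ ?_ hout
        rcases hout with ⟨u, v⟩ | u <;> constructor <;> linarith
    constructor
    · by_contra hlt
      push Not at hlt
      by_cases hcase : dentLo j k - 1 ≤ c k - w k + dentLo i k
      · exact along (dentLo i k - w k) (by linarith) (by linarith) (Or.inl ⟨by linarith, by linarith⟩)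
      · push Not at hcase
        exact along (dentLo j k - 1 - c k) (by linarith) (by linarith)
          (Or.inl ⟨by linarith, by linarith⟩)
    · by_contra hlt
      push Not at hlt
      exact along (dentLo j k + dentLen j k - c k) (by linarith) (by linarith) (Or.inr (by ring))

lemma predR_mem (hd : 3 ≤ d) (hP : ExactR P) {p : Fin d → ℝ} (hp : p ∈ P) (j : Fin d) :
    p - axisVec j ∈ P := by
  obtain ⟨k0, hk0⟩ : ∃ k0 : Fin d, k0 = ⟨0, by omega⟩ := ⟨_, rfl⟩
  obtain ⟨cell, hcell⟩ : ∃ cell : Fin d → ℝ, ∀ k, cell k = dentLo j k := ⟨_, fun _ => rfl⟩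
  have hin : InDent j cell := fun k => by
    have := dent_bounds j k
    rw [hcell]; constructor <;> linarith
  obtain ⟨q, hq, i, w, hw, hwd, hin'⟩ := dent_cover hd hP hp hin
  have hw0 : ∀ k, w k = dentLo i k := fun k => by
    have := hin' k
    have := hwd k
    rw [hcell] at *
    linarith
  have l0 : ∀ i : Fin d, dentLo i k0 = 1 ∧ dentLen i k0 = d + 1 + (i : ℕ) := fun i => by
    simp [hk0, dentLo, dentLen]
  have hle : (i : ℕ) = j := by
    by_contra hne
    have h1 := hin' k0
    rw [hcell, hw0, (l0 j).1, (l0 i).1, (l0 j).2, (l0 i).2] at h1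
    have hlt : (i : ℕ) < j := by
      have : ((i : ℕ) : ℝ) ≤ ((j : ℕ) : ℝ) := by linarith [h1.2]
      have : (i : ℕ) ≤ j := by exact_mod_cast this
      omega
    have hlt' : ((i : ℕ) : ℝ) + 1 ≤ ((j : ℕ) : ℝ) := by exact_mod_cast hlt
    have hjd : ((j : ℕ) : ℝ) + 1 ≤ (d : ℝ) := by exact_mod_cast j.isLt
    -- the point right after the first bump
    obtain ⟨a, ha⟩ : ∃ a : ℝ, a = 1 + (d + 1 + ((i : ℕ) : ℝ)) := ⟨_, rfl⟩
    have hin2 : InDent j (Function.update cell k0 a) := by
      intro k
      by_cases hk : k = k0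
      · subst hk
        rw [Function.update_self, (l0 j).1, (l0 j).2]
        constructor <;> linarith [Nat.cast_nonneg (α := ℝ) (i : ℕ)]
      · rw [Function.update_of_ne hk]; exact hin k
    obtain ⟨q', hq', i', w', hw', hwd', hin''⟩ := dent_cover hd hP hp hin2
    have h2 := hin'' k0
    rw [Function.update_self, (l0 j).1, (l0 i').1, (l0 j).2, (l0 i').2] at h2
    have h3 := hwd' k0
    rw [(l0 i').1, (l0 i').2] at h3
    have hi'0 : (0 : ℝ) ≤ ((i' : ℕ) : ℝ) := Nat.cast_nonneg _
    have hi0 : (0 : ℝ) ≤ ((i : ℕ) : ℝ) := Nat.cast_nonneg _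
    by_cases hst : w' k0 = 1
    · rw [hst] at h2
      linarith [h2.2]
    · -- a point lying in both bumps
      have hgt : 1 < w' k0 := lt_of_le_of_ne h3.1 (Ne.symm hst)
      obtain ⟨t, ht⟩ : ∃ t, t = max (a - w' k0 + 1) 1 := ⟨_, rfl⟩
      have t1 : 1 ≤ t := ht ▸ le_max_right _ _
      have t2 : a - w' k0 + 1 ≤ t := ht ▸ le_max_left _ _
      have t3 : t < a := by rw [ht]; exact max_lt (by linarith) (by linarith)
      have f1 : InDent i (p + Function.update cell k0 t - q - axisVec i) := by
        intro k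
        by_cases hk : k = k0
        · subst hk
          have e : (p + Function.update cell k t - q - axisVec i) k = w k + (t - 1) := by
            simp [hw, hcell, (l0 j).1]; ring
          rw [e, hw0, (l0 i).1, (l0 i).2]
          constructor <;> linarith
        · have e : (p + Function.update cell k0 t - q - axisVec i) k = w k := by
            simp [hw, Function.update_of_ne hk]
          rw [e]; exact hwd k
      have f2 : InDent i' (p + Function.update cell k0 t - q' - axisVec i') := by
        intro k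
        by_cases hk : k = k0
        · subst hk
          have e : (p + Function.update cell k t - q' - axisVec i') k = w' k + (t - a) := by
            simp [hw']; ring
          rw [e, (l0 i').1, (l0 i').2]
          constructor <;> linarith
        · have e : (p + Function.update cell k0 t - q' - axisVec i') k = w' k := by
            simp [hw', Function.update_of_ne hk]
          rw [e]; exact hwd' k
      have hqq : q = q' := exactR_unique hP hq hq' (Or.inr ⟨i, f1⟩) (Or.inr ⟨i', f2⟩)
      subst hqq
      obtain rfl := bump_axis_eq f1 f2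
      have e : w' k0 = w k0 + a - 1 := by
        rw [hw', hw]; simp [hcell, (l0 j).1]; ring
      rw [hw0, (l0 i).1] at e
      linarith [h3.2]
  obtain rfl : i = j := Fin.ext hle
  have e : p - axisVec i = q := by
    funext k
    have h := congrFun hw k
    rw [hw0] at h
    simp [hcell] at h
    simp
    linarith
  rw [e]; exact hq

lemma downR_mem (hd : 3 ≤ d) (hP : ExactR P) {p : Fin d → ℝ} (hp : p ∈ P) (n : Fin d → ℕ) :
    p - (fun i => rside d * n i) ∈ P := by
  induction hN : ∑ i, n i using Nat.strong_induction_on generalizing n with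
  | _ N ih =>
    by_cases h0 : ∀ i, n i = 0
    · have : (fun i => rside d * (n i : ℝ)) = 0 := funext fun i => by simp [h0 i]
      simpa [this] using hp
    push Not at h0
    obtain ⟨j, hj⟩ := h0
    have hlt : ∑ i, Function.update n j (n j - 1) i < N := by
      rw [← hN]
      apply Finset.sum_lt_sum
      · intro i _
        by_cases hi : i = j
        · subst hi; simp
        · simp [Function.update_of_ne hi]
      · exact ⟨j, Finset.mem_univ _, by simp; omega⟩
    have h := predR_mem hd hP (ih _ hlt (Function.update n j (n j - 1)) rfl) j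
    have e : p - (fun i => rside d * (Function.update n j (n j - 1) i : ℝ)) - axisVec j
        = p - fun i => rside d * (n i : ℝ) := by
      funext i
      by_cases hi : i = j
      · subst hi
        simp [axisVec, Nat.cast_sub (show 1 ≤ n i by omega)]
        ring
      · simp [axisVec, Function.update_of_ne hi, hi]
    rwa [e] at h

lemma rside_pos : (6 : ℝ) ≤ rside d := by
  have : (0 : ℝ) ≤ (d : ℝ) := Nat.cast_nonneg _
  unfold rside; linarith

lemma rigidR (hd : 3 ≤ d) (hP : ExactR P) :
    ∃ s : Fin d → ℝ, P = {p | ∃ k : Fin d → ℤ, p = fun i => s i + rside d * k i} := by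
  obtain ⟨s, ⟨hp, -⟩, -⟩ := hP 0
  have hM : (6 : ℝ) ≤ rside d := rside_pos
  have sub : ∀ s' ∈ P, ∃ k : Fin d → ℤ, s' = fun i => s i + rside d * k i := by
    intro s' hp'
    obtain ⟨k, hk⟩ : ∃ k : Fin d → ℤ, ∀ i, k i = ⌊(s' i - s i) / rside d⌋ := ⟨_, fun _ => rfl⟩
    obtain ⟨r, hr⟩ : ∃ r : Fin d → ℝ, ∀ i, r i = s' i - s i - rside d * k i := ⟨_, fun _ => rfl⟩
    have hrb : ∀ i, 0 ≤ r i ∧ r i < rside d := by
      intro i
      have a := Int.floor_le ((s' i - s i) / rside d)
      have b := Int.lt_floor_add_one ((s' i - s i) / rside d)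
      rw [← hk] at a b
      rw [le_div_iff₀ (by linarith)] at a
      rw [div_lt_iff₀ (by linarith)] at b
      rw [hr]; constructor <;> nlinarith
    have h1 := downR_mem hd hP hp fun i => (-k i).toNat
    have h2 := downR_mem hd hP hp' fun i => (k i).toNat
    have hkn : ∀ i, (((k i).toNat : ℕ) : ℝ) - (((-k i).toNat : ℕ) : ℝ) = (k i : ℝ) := by
      intro i
      have : (((k i).toNat : ℕ) : ℤ) - (((-k i).toNat : ℕ) : ℤ) = k i := by omega
      exact_mod_cast this
    obtain ⟨e2, he2⟩ : ∃ e2 : Fin d, e2 = ⟨2, by omega⟩ := ⟨_, rfl⟩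
    obtain ⟨t, t1, t2, t3⟩ : ∃ t : ℝ, r e2 ≤ t ∧ t < rside d ∧
        ((t < 2 ∨ 3 ≤ t) ∧ (t - r e2 < 2)) := by
      by_cases h : 2 ≤ r e2 ∧ r e2 < 3
      · exact ⟨r e2 + 1, by linarith, by linarith [h.2], Or.inr (by linarith [h.1]), by linarith⟩
      · refine ⟨r e2, le_rfl, (hrb e2).2, ?_, by linarith⟩
        push Not at h
        by_cases h' : 2 ≤ r e2
        · exact Or.inr (h h')
        · exact Or.inl (not_le.1 h')
    obtain ⟨z, hz⟩ : ∃ z : Fin d → ℝ, ∀ i, z i = s i - rside d * ((-k i).toNat : ℕ)
        + (if i = e2 then t else r i) := ⟨_, fun _ => rfl⟩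
    have heq := exactR_unique (z := z) hP h1 h2
      (Or.inl (core_of_level hd (fun i => by
        simp [hz]
        split
        · next h => subst h; constructor <;> linarith [(hrb i).1]
        · exact hrb i) (by rw [← he2]; simp [hz]; exact t3.1)))
      (Or.inl (core_of_level hd (fun i => by
        have e : z i - (s' i - rside d * ((k i).toNat : ℕ))
            = (if i = e2 then t else r i) - r i := by
          rw [hz, hr, ← hkn]; ring
        simp only [Pi.sub_apply]
        rw [e]
        split
        · next h => subst h; constructor <;> linarith [(hrb i).1]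
        · simp; linarith) (by
        rw [← he2]
        left
        have e : z e2 - (s' e2 - rside d * ((k e2).toNat : ℕ)) = t - r e2 := by
          rw [hz, hr, ← hkn, if_pos rfl]; ring
        simp only [Pi.sub_apply]
        rw [e]; exact t3.2)))
    refine ⟨k, funext fun i => ?_⟩
    have h := congrFun heq i
    simp at h
    rw [← hkn]
    linarith
  refine ⟨s, Set.Subset.antisymm sub ?_⟩
  rintro _ ⟨k, rfl⟩
  obtain ⟨q, ⟨hq, hs⟩, -⟩ := hP fun i => s i + rside d * k i
  obtain ⟨k', rfl⟩ := sub q hq
  rcases hs with hb | ⟨j, hj⟩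
  · suffices e : k' = k by subst e; exact hq
    funext i
    have h := hb.1 i
    simp at h
    rcases lt_trichotomy (k' i) (k i) with hlt | heq | hlt
    · have : (k' i : ℝ) + 1 ≤ (k i : ℝ) := by exact_mod_cast hlt
      nlinarith
    · exact heq
    · have : (k i : ℝ) + 1 ≤ (k' i : ℝ) := by exact_mod_cast hlt
      nlinarith
  · exfalso
    obtain ⟨e2, he2⟩ : ∃ e2 : Fin d, e2 = ⟨2, by omega⟩ := ⟨_, rfl⟩
    have h := hj e2
    have hl : dentLo j e2 = 2 ∧ dentLen j e2 = 1 := by simp [he2, dentLo, dentLen]
    rw [hl.1, hl.2] at h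
    simp [axisVec, Pi.single_apply] at h
    have key : ∀ m : ℤ, ¬ (2 ≤ rside d * (m : ℝ) ∧ rside d * (m : ℝ) < 3) := by
      rintro m ⟨a, b⟩
      rcases lt_or_ge m 1 with hm | hm
      · have : (m : ℝ) ≤ 0 := by exact_mod_cast (show m ≤ 0 by omega)
        nlinarith
      · have : (1 : ℝ) ≤ (m : ℝ) := by exact_mod_cast hm
        nlinarith
    by_cases hje : e2 = j
    · subst hje
      simp at h
      exact key (k e2 - k' e2 - 1) (by push_cast; constructor <;> linarith [h.1, h.2])
    · simp [hje] at h
      exact key (k e2 - k' e2) (by push_cast; constructor <;> linarith [h.1, h.2])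

lemma grid_exactR (hd : 3 ≤ d) :
    ExactR {p : Fin d → ℝ | ∃ k : Fin d → ℤ, p = fun i => rside d * k i} := by
  have hM : (0 : ℝ) < rside d := by linarith [rside_pos (d := d)]
  intro z
  obtain ⟨k, hk⟩ : ∃ k : Fin d → ℤ, ∀ i, k i = ⌊z i / rside d⌋ := ⟨_, fun _ => rfl⟩
  have hrb : ∀ i, 0 ≤ z i - rside d * k i ∧ z i - rside d * k i < rside d := by
    intro i
    have a := Int.floor_le (z i / rside d)
    have b := Int.lt_floor_add_one (z i / rside d)
    rw [← hk] at a b
    rw [le_div_iff₀ hM] at a
    rw [div_lt_iff₀ hM] at b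
    constructor <;> nlinarith
  have uniq : ∀ (k' : Fin d → ℤ), (∀ i, 0 ≤ z i - rside d * k' i ∧ z i - rside d * k' i < rside d) →
      k' = k := by
    intro k' h
    funext i
    rw [hk, eq_comm, Int.floor_eq_iff, le_div_iff₀ hM, div_lt_iff₀ hM]
    constructor <;> nlinarith [h i]
  have bumpk : ∀ (k' : Fin d → ℤ) (j : Fin d),
      InDent j (z - (fun i => rside d * (k' i : ℝ)) - axisVec j) →
      (∀ i, k' i = if i = j then k i - 1 else k i) ∧
      InDent j (fun i => z i - rside d * k i) := by
    intro k' j h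
    have e := uniq (fun i => if i = j then k' i + 1 else k' i) fun i => by
      have := dent_cube h i
      by_cases hi : i = j
      · subst hi; simp [axisVec] at this ⊢; constructor <;> linarith
      · simp [axisVec, hi] at this ⊢; exact this
    have e' : ∀ i, k' i = if i = j then k i - 1 else k i := by
      intro i
      have := congrFun e i
      by_cases hi : i = j <;> simp [hi] at this ⊢ <;> omega
    refine ⟨e', ?_⟩
    convert h using 1
    funext i
    rcases eq_or_ne i j with rfl | hi
    · simp [axisVec, e' i]; ring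
    · simp [axisVec, e' i, hi]
  by_cases hh : ∃ j, InDent j fun i => z i - rside d * k i
  · obtain ⟨j, hj⟩ := hh
    refine ⟨fun i => rside d * ((if i = j then k i - 1 else k i : ℤ) : ℝ),
      ⟨⟨_, rfl⟩, Or.inr ⟨j, ?_⟩⟩, ?_⟩
    · convert hj using 1
      funext i
      by_cases hi : i = j <;> simp [axisVec, hi]
      ring
    · rintro _ ⟨⟨k', rfl⟩, hc | ⟨j', hj'⟩⟩
      · obtain rfl := uniq k' hc.1
        exact absurd hj (hc.2 j)
      · obtain ⟨e, h'⟩ := bumpk k' j' hj'
        obtain rfl := dent_row_inj hd h' hj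
        funext i
        rw [e i]
  · push Not at hh
    refine ⟨fun i => rside d * (k i : ℝ), ⟨⟨k, rfl⟩, Or.inl ⟨hrb, hh⟩⟩, ?_⟩
    rintro _ ⟨⟨k', rfl⟩, hc | ⟨j, hj⟩⟩
    · obtain rfl := uniq k' hc.1
      rfl
    · exact absurd (bumpk k' j hj).2 (hh j)

end Vale.Agent.P043
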