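import Mathlib
import Vale.Agent.P043.RealRigid

/-!
P043: from an aperiodic finite tile of `ℤ^d` to an aperiodic measurable tile of `ℝ^d`.
-/

namespace Vale.Agent.P043

open MeasureTheory

variable {d : ℕ}

/-- the unit cell of a point -/
noncomputable def cellOf (x : Fin d → ℝ) : Fin d → ℤ := fun i => ⌊x i⌋

/-- the tile made of dented cubes at the points of `F` -/
noncomputable def realTile (F : Finset (Fin d → ℤ)) : Set (Fin d → ℝ) :=
  {x | ∃ f ∈ F, InCube fun i => x i - rside d * f i}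

lemma dentInts (j k : Fin d) : ∃ a b : ℤ, dentLo j k = a ∧ dentLo j k + dentLen j k = b := by
  unfold dentLo dentLen
  split_ifs
  · exact ⟨1, 1 + (d + 1 + (j : ℕ)), by simp, by push_cast; ring⟩
  · exact ⟨2 + 2 * (j : ℕ), 2 + 2 * (j : ℕ) + 1, by push_cast; ring, by push_cast; ring⟩
  · exact ⟨2, 3, by simp, by norm_num⟩

lemma axisVec_int (j k : Fin d) : ∃ m : ℤ, axisVec j k = m := by
  by_cases h : k = j
  · exact ⟨2 * d + 6, by subst h; simp [axisVec, rside]⟩
  · exact ⟨0, by simp [axisVec, h]⟩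

lemma inDent_floor (j : Fin d) {x y : Fin d → ℝ} (h : ∀ i, ⌊x i⌋ = ⌊y i⌋) (hx : InDent j x) :
    InDent j y := by
  intro k
  obtain ⟨a, b, ha, hb⟩ := dentInts j k
  have := hx k
  rw [hb, ha] at this ⊢
  rw [← Int.le_floor, ← Int.floor_lt, ← h k, Int.le_floor, Int.floor_lt]
  exact this

lemma floor_shift {u v : ℝ} {m : ℤ} (h : ⌊u⌋ = ⌊v⌋) : ⌊u - m⌋ = ⌊v - m⌋ := by
  rw [Int.floor_sub_intCast, Int.floor_sub_intCast, h]

lemma inCube_floor {x y : Fin d → ℝ} (h : ∀ i, ⌊x i⌋ = ⌊y i⌋) (hx : InCube x) : InCube y := by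
  rcases hx with hc | ⟨j, hj⟩
  · refine Or.inl ⟨fun k => ?_, fun j hj => hc.2 j (inDent_floor j (fun i => (h i).symm) hj)⟩
    have hM : (((2 * d + 6 : ℤ)) : ℝ) = rside d := by simp [rside]
    have := hc.1 k
    rw [← hM] at this ⊢
    rw [← Int.cast_zero, ← Int.le_floor, ← Int.floor_lt, ← h k, Int.le_floor, Int.floor_lt,
      Int.cast_zero]
    exact this
  · refine Or.inr ⟨j, inDent_floor j (fun i => ?_) hj⟩
    obtain ⟨m, hm⟩ := axisVec_int j i
    simp only [Pi.sub_apply, hm]
    exact floor_shift (h i)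

lemma realTile_floor (F : Finset (Fin d → ℤ)) {x y : Fin d → ℝ} (h : ∀ i, ⌊x i⌋ = ⌊y i⌋)
    (hx : x ∈ realTile F) : y ∈ realTile F := by
  obtain ⟨f, hf, hc⟩ := hx
  refine ⟨f, hf, inCube_floor (fun i => ?_) hc⟩
  have e : rside d * (f i : ℝ) = (((2 * d + 6 : ℤ) * f i : ℤ) : ℝ) := by simp [rside]
  rw [e]
  exact floor_shift (h i)

lemma inCube_box {x : Fin d → ℝ} (h : InCube x) : ∀ k, 0 ≤ x k ∧ x k < 2 * rside d := by
  have hM := rside_pos (d := d)
  intro k
  rcases h with hc | ⟨j, hj⟩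
  · constructor <;> linarith [(hc.1 k).1, (hc.1 k).2]
  · have := dent_cube hj k
    rcases eq_or_ne k j with rfl | hk
    · simp [axisVec] at this; constructor <;> linarith
    · simp [axisVec, hk] at this; constructor <;> linarith

lemma realTile_bound (F : Finset (Fin d → ℤ)) :
    ∃ B : ℝ, ∀ x ∈ realTile F, ∀ k, |x k| ≤ B := by
  refine ⟨2 * rside d + rside d * ∑ f ∈ F, ∑ i, |((f i : ℤ) : ℝ)|, ?_⟩
  rintro x ⟨f, hf, hc⟩ k
  have hb := inCube_box hc k
  have hM := rside_pos (d := d)
  have h1 : |((f k : ℤ) : ℝ)| ≤ ∑ i, |((f i : ℤ) : ℝ)| :=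
    Finset.single_le_sum (f := fun i => |((f i : ℤ) : ℝ)|) (fun i _ => abs_nonneg _)
      (Finset.mem_univ k)
  have h2 : ∑ i, |((f i : ℤ) : ℝ)| ≤ ∑ g ∈ F, ∑ i, |((g i : ℤ) : ℝ)| :=
    Finset.single_le_sum (f := fun g : Fin d → ℤ => ∑ i, |((g i : ℤ) : ℝ)|)
      (fun g _ => Finset.sum_nonneg fun i _ => abs_nonneg _) hf
  have h3 := mul_le_mul_of_nonneg_left (h1.trans h2) (show (0 : ℝ) ≤ rside d by linarith)
  have h4 : |rside d * ((f k : ℤ) : ℝ)| = rside d * |((f k : ℤ) : ℝ)| := by
    rw [abs_mul, abs_of_nonneg (show (0 : ℝ) ≤ rside d by linarith)]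
  rw [abs_le]
  have h5 := abs_le.1 h4.le
  constructor <;> linarith [hb.1, hb.2, h5.1, h5.2]

lemma realTile_measurable (F : Finset (Fin d → ℤ)) : MeasurableSet (realTile F) := by
  have e : realTile F = cellOf ⁻¹' (cellOf '' realTile F) := by
    refine Set.Subset.antisymm (Set.subset_preimage_image _ _) ?_
    rintro y ⟨x, hx, hxy⟩
    exact realTile_floor F (fun i => congrFun hxy i) hx
  rw [e]
  exact (measurable_pi_lambda _ fun i => (measurable_pi_apply i).floor) (MeasurableSet.of_discrete)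

/-- a small positive box at `z` -/
def upBox (z : Fin d → ℝ) (ε : ℝ) : Set (Fin d → ℝ) :=
  Set.pi Set.univ fun i => Set.Ico (z i) (z i + ε)

lemma upBox_pos (z : Fin d → ℝ) {ε : ℝ} (hε : 0 < ε) : 0 < volume (upBox z ε) := by
  rw [upBox, volume_pi_pi]
  simp only [Real.volume_Ico, add_sub_cancel_left, Finset.prod_const, Finset.card_univ,
    Fintype.card_fin]
  exact ENNReal.pow_pos (ENNReal.ofReal_pos.2 hε) d

lemma upBox_floor (z a : Fin d → ℝ) : ∃ ε : ℝ, 0 < ε ∧
    ∀ w ∈ upBox z ε, ∀ i, ⌊w i - a i⌋ = ⌊z i - a i⌋ := by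
  obtain ⟨ε, hε, hle⟩ : ∃ ε : ℝ, 0 < ε ∧ ∀ i, ε ≤ 1 - Int.fract (z i - a i) := by
    rcases isEmpty_or_nonempty (Fin d) with h | h
    · exact ⟨1, one_pos, fun i => isEmptyElim i⟩
    · obtain ⟨i₀, -, hi₀⟩ := Finset.exists_min_image Finset.univ
        (fun i => 1 - Int.fract (z i - a i)) Finset.univ_nonempty
      exact ⟨1 - Int.fract (z i₀ - a i₀), by linarith [Int.fract_lt_one (z i₀ - a i₀)],
        fun i => hi₀ i (Finset.mem_univ i)⟩
  refine ⟨ε, hε, fun w hw i => ?_⟩
  have hwi := hw i (Set.mem_univ i)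
  rw [Int.floor_eq_iff]
  have h1 := Int.floor_le (z i - a i)
  have h2 := hle i
  rw [Int.fract] at h2
  constructor <;> linarith [hwi.1, hwi.2]

/-- tilings up to null sets are exact tilings -/
lemma exact_of_null (F : Finset (Fin d → ℤ)) (hne : (realTile F).Nonempty) {A : Set (Fin d → ℝ)}
    (hcov : volume {z | ∀ a ∈ A, z - a ∉ realTile F} = 0)
    (hdis : ∀ a ∈ A, ∀ b ∈ A, a ≠ b →
      volume {z | z - a ∈ realTile F ∧ z - b ∈ realTile F} = 0) :
    ∀ z, ∃! a, a ∈ A ∧ z - a ∈ realTile F := by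
  classical
  have sep : ∀ a ∈ A, ∀ b ∈ A, ∀ z, z - a ∈ realTile F → z - b ∈ realTile F → a = b := by
    intro a ha b hb z h1 h2
    by_contra hne'
    obtain ⟨ε₁, e1, f1⟩ := upBox_floor z a
    obtain ⟨ε₂, e2, f2⟩ := upBox_floor z b
    refine (upBox_pos z (lt_min e1 e2)).ne' (measure_mono_null ?_ (hdis a ha b hb hne'))
    intro w hw
    have m : ∀ ε, min ε₁ ε₂ ≤ ε → w ∈ upBox z ε := fun ε h i _ =>
      ⟨(hw i (Set.mem_univ i)).1, by linarith [(hw i (Set.mem_univ i)).2]⟩
    exact ⟨realTile_floor F (fun i => (f1 w (m _ (min_le_left _ _)) i).symm) h1,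
      realTile_floor F (fun i => (f2 w (m _ (min_le_right _ _)) i).symm) h2⟩
  obtain ⟨x₀, hx₀⟩ := hne
  have inj : ∀ a ∈ A, ∀ b ∈ A, cellOf a = cellOf b → a = b := by
    intro a ha b hb hab
    -- both translates of the cell of `x₀` share the point below
    refine sep a ha b hb (fun i => (⌊x₀ i⌋ : ℝ) + max (a i) (b i)) ?_ ?_
    · refine realTile_floor F (fun i => ?_) hx₀
      have := congrFun hab i
      simp only [cellOf] at this
      have h1 := Int.floor_le (a i); have h2 := Int.lt_floor_add_one (a i)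
      have h3 := Int.floor_le (b i); have h4 := Int.lt_floor_add_one (b i)
      rw [this] at h1 h2
      simp only [Pi.sub_apply]
      rw [eq_comm, Int.floor_eq_iff]
      rcases le_total (a i) (b i) with h | h
      · rw [max_eq_right h]; constructor <;> linarith
      · rw [max_eq_left h]; constructor <;> linarith
    · refine realTile_floor F (fun i => ?_) hx₀
      have := congrFun hab i
      simp only [cellOf] at this
      have h1 := Int.floor_le (a i); have h2 := Int.lt_floor_add_one (a i)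
      have h3 := Int.floor_le (b i); have h4 := Int.lt_floor_add_one (b i)
      rw [this] at h1 h2
      simp only [Pi.sub_apply]
      rw [eq_comm, Int.floor_eq_iff]
      rcases le_total (a i) (b i) with h | h
      · rw [max_eq_right h]; constructor <;> linarith
      · rw [max_eq_left h]; constructor <;> linarith
  intro z
  obtain ⟨B, hB⟩ := realTile_bound F
  obtain ⟨near, hnear⟩ : ∃ S, S = {a | a ∈ A ∧ ∀ i, |z i - a i| ≤ B + 1} := ⟨_, rfl⟩
  have hfin : near.Finite := by
    refine Set.Finite.of_finite_image (f := cellOf) ?_ ?_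
    · refine Set.Finite.subset (Set.finite_Icc (fun i => ⌊z i - (B + 1)⌋)
        (fun i => ⌊z i + (B + 1)⌋)) ?_
      rintro _ ⟨a, ha, rfl⟩
      rw [hnear] at ha
      constructor <;> intro i <;> have := abs_le.1 (ha.2 i) <;> apply Int.floor_le_floor <;>
        linarith [this.1, this.2]
    · intro a ha b hb h
      rw [hnear] at ha hb
      exact inj a ha.1 b hb.1 h
  by_cases hex : ∃ a, a ∈ A ∧ z - a ∈ realTile F
  · obtain ⟨a, ha, ha'⟩ := hex
    exact ⟨a, ⟨ha, ha'⟩, fun b hb => sep b hb.1 a ha z hb.2 ha'⟩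
  · exfalso
    push Not at hex
    choose ε hε hfl using fun a => upBox_floor z a
    obtain ⟨m, hm, hm1, hmle⟩ : ∃ m : ℝ, 0 < m ∧ m ≤ 1 ∧ ∀ a ∈ near, m ≤ ε a := by
      rcases hfin.toFinset.eq_empty_or_nonempty with h | h
      · exact ⟨1, one_pos, le_rfl, fun a ha => by
          have := hfin.mem_toFinset.2 ha; rw [h] at this; simp at this⟩
      · obtain ⟨a₀, ha₀, hmin⟩ := Finset.exists_min_image _ ε h
        exact ⟨min (ε a₀) 1, lt_min (hε a₀) one_pos, min_le_right _ _,
          fun a ha => (min_le_left _ _).trans (hmin a (hfin.mem_toFinset.2 ha))⟩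
    refine (upBox_pos z hm).ne' (measure_mono_null ?_ hcov)
    intro w hw a ha hmem
    by_cases hn : a ∈ near
    · exact hex a ha (realTile_floor F (hfl a w (fun i _ => ⟨(hw i (Set.mem_univ i)).1,
        by linarith [(hw i (Set.mem_univ i)).2, hmle a hn]⟩)) hmem)
    · apply hn
      rw [hnear]
      refine ⟨ha, fun i => ?_⟩
      have h1 := abs_le.1 (hB _ hmem i)
      simp only [Pi.sub_apply] at h1
      rw [abs_le]
      constructor <;> linarith [(hw i (Set.mem_univ i)).1, (hw i (Set.mem_univ i)).2, h1.1, h1.2]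

lemma real_of_discrete (hd : 3 ≤ d) (F : Finset (Fin d → ℤ))
    (hex : ∃ A : Set (Fin d → ℤ), ∀ z,
      ∃! p : (Fin d → ℤ) × (Fin d → ℤ), p.1 ∈ A ∧ p.2 ∈ F ∧ p.1 + p.2 = z)
    (hno : ∀ A : Set (Fin d → ℤ),
      (∀ z, ∃! p : (Fin d → ℤ) × (Fin d → ℤ), p.1 ∈ A ∧ p.2 ∈ F ∧ p.1 + p.2 = z) →
      ¬ ∃ H : AddSubgroup (Fin d → ℤ), H.index ≠ 0 ∧ ∀ h ∈ H, ∀ a, a + h ∈ A ↔ a ∈ A) :
    ∃ Ω : Set (Fin d → ℝ), MeasurableSet Ω ∧ Bornology.IsBounded Ω ∧ 0 < volume Ω ∧
      (∃ A : Set (Fin d → ℝ), volume {z | ∀ a ∈ A, z - a ∉ Ω} = 0 ∧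
        ∀ a ∈ A, ∀ b ∈ A, a ≠ b → volume {z | z - a ∈ Ω ∧ z - b ∈ Ω} = 0) ∧
      ∀ A : Set (Fin d → ℝ), volume {z | ∀ a ∈ A, z - a ∉ Ω} = 0 →
        (∀ a ∈ A, ∀ b ∈ A, a ≠ b → volume {z | z - a ∈ Ω ∧ z - b ∈ Ω} = 0) →
        ¬ ∃ v : Fin d → (Fin d → ℝ), LinearIndependent ℝ v ∧
          ∀ i a, a + v i ∈ A ↔ a ∈ A := by
  classical
  have hM := rside_pos (d := d)
  obtain ⟨A₀, hA₀⟩ := hex
  obtain ⟨⟨a₀, f₀⟩, ⟨ha₀, hf₀, -⟩, -⟩ := hA₀ 0
  have hcorner : InCube (0 : Fin d → ℝ) :=
    Or.inl (core_of_level hd (fun k => ⟨le_rfl, by simp; linarith⟩) (Or.inl (by simp)))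
  have hne : (realTile F).Nonempty := by
    refine ⟨fun i => rside d * f₀ i, f₀, hf₀, ?_⟩
    simp only [sub_self]
    exact hcorner
  obtain ⟨B, hB⟩ := realTile_bound F
  refine ⟨realTile F, realTile_measurable F, ?_, ?_, ?_, fun A hcov hdis => ?_⟩
  · rw [isBounded_iff_forall_norm_le]
    exact ⟨max B 0, fun x hx => (pi_norm_le_iff_of_nonneg (le_max_right _ _)).2 fun i =>
      (Real.norm_eq_abs _).le.trans ((hB x hx i).trans (le_max_left _ _))⟩
  · obtain ⟨x, hx⟩ := hne
    obtain ⟨ε, hε, hfl⟩ := upBox_floor x 0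
    refine (upBox_pos x hε).trans_le (measure_mono fun w hw => ?_)
    exact realTile_floor F (fun i => by simpa using (hfl w hw i).symm) hx
  · refine ⟨{a | ∃ b ∈ A₀, a = fun i => rside d * (b i : ℝ)}, ?_, ?_⟩
    all_goals
      have hgrid := grid_exactR (d := d) hd
    · have e : {z | ∀ a ∈ {a | ∃ b ∈ A₀, a = fun i => rside d * (b i : ℝ)}, z - a ∉ realTile F}
          = ∅ := by
        rw [Set.eq_empty_iff_forall_notMem]
        intro z hz
        obtain ⟨_, ⟨⟨k, rfl⟩, hs⟩, -⟩ := hgrid z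
        obtain ⟨⟨a, f⟩, ⟨ha, hf, hsum⟩, -⟩ := hA₀ k
        refine hz _ ⟨a, ha, rfl⟩ ⟨f, hf, ?_⟩
        convert hs using 1
        funext i
        have := congrFun hsum i
        simp only [Pi.add_apply] at this
        simp only [Pi.sub_apply]
        rw [← this]; push_cast; ring
      rw [e]; exact measure_empty
    · rintro _ ⟨a, ha, rfl⟩ _ ⟨b, hb, rfl⟩ hab
      have e : {z : Fin d → ℝ | z - (fun i => rside d * (a i : ℝ)) ∈ realTile F ∧
          z - (fun i => rside d * (b i : ℝ)) ∈ realTile F} = ∅ := by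
        rw [Set.eq_empty_iff_forall_notMem]
        rintro z ⟨⟨f, hf, h1⟩, ⟨g, hg, h2⟩⟩
        apply hab
        have key : ∀ (c h : Fin d → ℤ), (InCube fun i =>
            (z - fun i => rside d * (c i : ℝ)) i - rside d * h i) →
            InCube (z - fun i => rside d * ((c i + h i : ℤ) : ℝ)) := by
          intro c h hh
          convert hh using 1
          funext i; simp; ring
        have e := exactR_unique hgrid ⟨_, rfl⟩ ⟨_, rfl⟩ (key a f h1) (key b g h2)
        have e' : a + f = b + g := by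
          funext i
          have := congrFun e i
          simp only [mul_eq_mul_left_iff, Int.cast_inj] at this
          rcases this with this | this
          · exact this
          · linarith
        have := (hA₀ (a + f)).unique (y₁ := (a, f)) (y₂ := (b, g)) ⟨ha, hf, rfl⟩ ⟨hb, hg, e'.symm⟩
        rw [Prod.mk.injEq] at this
        rw [this.1]
      rw [e]; exact measure_empty
  · rintro ⟨v, hv, hper⟩
    have hex' := exact_of_null F hne hcov hdis
    obtain ⟨P, hP⟩ : ∃ P : Set (Fin d → ℝ),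
        P = {p | ∃ a ∈ A, ∃ f ∈ F, p = fun i => a i + rside d * f i} := ⟨_, rfl⟩
    have hgrid := grid_exactR (d := d) hd
    have fdis : ∀ (x : Fin d → ℝ) (f g : Fin d → ℤ), (InCube fun i => x i - rside d * f i) →
        (InCube fun i => x i - rside d * g i) → f = g := by
      intro x f g h1 h2
      have e := exactR_unique (z := x) hgrid ⟨f, rfl⟩ ⟨g, rfl⟩ h1 h2
      funext i
      have := congrFun e i
      simp only [mul_eq_mul_left_iff, Int.cast_inj] at this
      rcases this with this | this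
      · exact this
      · linarith
    have hexR : ExactR P := by
      intro z
      obtain ⟨a, ⟨ha, f, hf, hc⟩, hu⟩ := hex' z
      refine ⟨fun i => a i + rside d * f i, ⟨hP ▸ ⟨a, ha, f, hf, rfl⟩, ?_⟩, ?_⟩
      · convert hc using 1
        funext i; simp; ring
      · rintro p ⟨hp, hs⟩
        rw [hP] at hp
        obtain ⟨b, hb, g, hg, rfl⟩ := hp
        have hc' : InCube fun i => (z - b) i - rside d * g i := by
          convert hs using 1
          funext i; simp; ring
        obtain rfl := hu b ⟨hb, g, hg, hc'⟩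
        obtain rfl := fdis (z - b) g f hc' hc
        rfl
    obtain ⟨s, hs⟩ := rigidR hd hexR
    have coord : ∀ a ∈ A, ∀ f ∈ F, ∃ k : Fin d → ℤ,
        ∀ i, a i + rside d * f i = s i + rside d * k i := by
      intro a ha f hf
      have hm : (fun i => a i + rside d * (f i : ℝ)) ∈ P := hP ▸ ⟨a, ha, f, hf, rfl⟩
      rw [hs] at hm
      obtain ⟨k, hk⟩ := hm
      exact ⟨k, fun i => congrFun hk i⟩
    obtain ⟨B₀, hB₀⟩ : ∃ B₀ : Set (Fin d → ℤ),
        B₀ = {k | (fun i => s i + rside d * (k i : ℝ)) ∈ A} := ⟨_, rfl⟩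
    have tile : ∀ z, ∃! p : (Fin d → ℤ) × (Fin d → ℤ), p.1 ∈ B₀ ∧ p.2 ∈ F ∧ p.1 + p.2 = z := by
      intro z
      have hz : (fun i => s i + rside d * (z i : ℝ)) ∈ P := by rw [hs]; exact ⟨z, rfl⟩
      rw [hP] at hz
      obtain ⟨a, ha, f, hf, hzf⟩ := hz
      have ea : (fun i => s i + rside d * ((z i - f i : ℤ) : ℝ)) = a := by
        funext i
        have := congrFun hzf i
        push_cast; linarith
      refine ⟨(z - f, f), ⟨?_, hf, sub_add_cancel _ _⟩, ?_⟩
      · rw [hB₀]
        show (fun i => s i + rside d * (((z - f) i : ℤ) : ℝ)) ∈ A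
        simp only [Pi.sub_apply]
        rw [ea]; exact ha
      · rintro ⟨b, g⟩ ⟨hb, hg, hbg⟩
        rw [hB₀] at hb
        simp only at hbg
        obtain ⟨x, hx⟩ : ∃ x : Fin d → ℝ, ∀ i, x i = s i + rside d * z i := ⟨_, fun _ => rfl⟩
        have m1 : x - a ∈ realTile F := ⟨f, hf, by
          convert hcorner using 1
          funext i
          have := congrFun hzf i
          simp [hx]; linarith⟩
        have m2 : (x - fun i => s i + rside d * (b i : ℝ)) ∈ realTile F := ⟨g, hg, by
          convert hcorner using 1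
          funext i
          have := congrFun hbg i
          simp at this
          simp [hx, ← this]; ring⟩
        have e := (hex' x).unique ⟨hb, m2⟩ ⟨ha, m1⟩
        have eb : b = z - f := by
          funext i
          have h1 := congrFun e i
          rw [← ea] at h1
          simp only [add_right_inj, mul_eq_mul_left_iff, Int.cast_inj] at h1
          rcases h1 with h1 | h1
          · exact h1
          · linarith
        subst eb
        have : g = f := by
          have := hbg
          rw [sub_add_eq_add_sub, sub_eq_iff_eq_add] at this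
          exact add_left_cancel this
        rw [this]
    obtain ⟨⟨b₁, f₁⟩, ⟨hb₁, hf₁, -⟩, -⟩ := tile 0
    rw [hB₀] at hb₁
    have hvint : ∀ i, ∃ w : Fin d → ℤ, v i = fun l => rside d * (w l : ℝ) := by
      intro i
      obtain ⟨k, hk⟩ := coord _ ((hper i _).2 hb₁) f₁ hf₁
      refine ⟨fun l => k l - f₁ l - b₁ l, funext fun l => ?_⟩
      have := hk l
      simp only [Pi.add_apply] at this
      push_cast; linarith
    choose W hW using hvint
    have hWper : ∀ i k, k + W i ∈ B₀ ↔ k ∈ B₀ := by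
      intro i k
      rw [hB₀]
      simp only [Set.mem_ofPred_eq]
      rw [← hper i (fun l => s l + rside d * (k l : ℝ))]
      have e : (fun l => s l + rside d * (((k + W i) l : ℤ) : ℝ))
          = (fun l => s l + rside d * (k l : ℝ)) + v i := by
        funext l; simp [hW i]; ring
      rw [e]
    obtain ⟨H, hH⟩ : ∃ H : AddSubgroup (Fin d → ℤ), ∀ h, h ∈ H ↔ ∀ k, k + h ∈ B₀ ↔ k ∈ B₀ :=
      ⟨{ carrier := {h | ∀ k, k + h ∈ B₀ ↔ k ∈ B₀}
         zero_mem' := by simp
         add_mem' := fun {a b} ha hb k => by rw [← add_assoc, hb, ha]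
         neg_mem' := fun {a} ha k => by
           have := ha (k + -a)
           rw [neg_add_cancel_right] at this
           exact this.symm }, fun _ => Iff.rfl⟩
    refine hno B₀ tile ⟨H, ?_, fun h hh => (hH h).1 hh⟩
    have hdet : Matrix.det (Matrix.of W) ≠ 0 := by
      intro h0
      have hinj : IsUnit (Matrix.of fun i l => (W i l : ℝ)) := by
        rw [← Matrix.linearIndependent_rows_iff_isUnit]
        have e : v = rside d • fun i l => (W i l : ℝ) := by
          funext i l; simp [hW i]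
        rw [e] at hv
        have hv' := hv
        rw [show (rside d • fun i l => (W i l : ℝ)) = fun i => rside d • fun l => (W i l : ℝ) from
          rfl] at hv'
        rw [Fintype.linearIndependent_iff] at hv' ⊢
        intro g hg i
        have := hv' g (by
          calc ∑ j, g j • rside d • (fun l => (W j l : ℝ))
              = rside d • ∑ j, g j • (fun l => (W j l : ℝ)) := by
                rw [Finset.smul_sum]; exact Finset.sum_congr rfl fun j _ => smul_comm _ _ _
            _ = 0 := by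
                rw [show ∑ j, g j • (fun l => (W j l : ℝ)) = 0 from hg, smul_zero]) i
        exact this
      rw [Matrix.isUnit_iff_isUnit_det, isUnit_iff_ne_zero] at hinj
      apply hinj
      have e := RingHom.map_det (Int.castRingHom ℝ) (Matrix.of W)
      rw [h0, map_zero] at e
      convert e.symm using 2
      ext i l; simp
    have hmem : ∀ u : Fin d → ℤ, (Matrix.of W).det • u ∈ H := by
      intro u
      have e : (Matrix.of W).det • u
          = ∑ i, (Matrix.vecMul u (Matrix.adjugate (Matrix.of W))) i • W i := by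
        have h1 : Matrix.vecMul (Matrix.vecMul u (Matrix.adjugate (Matrix.of W))) (Matrix.of W)
            = (Matrix.of W).det • u := by
          rw [Matrix.vecMul_vecMul, Matrix.adjugate_mul, Matrix.vecMul_smul, Matrix.vecMul_one]
        rw [← h1]
        funext l
        simp [Matrix.vecMul, dotProduct, Finset.sum_apply]
      rw [e]
      exact AddSubgroup.sum_mem _ fun i _ => AddSubgroup.zsmul_mem _ ((hH _).2 (hWper i)) _
    obtain ⟨D, hD⟩ : ∃ D : ℕ, D = (Matrix.of W).det.natAbs := ⟨_, rfl⟩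
    haveI : Finite ((Fin d → ℤ) ⧸ H) := by
      refine Finite.of_surjective (fun r : Fin d → Fin D =>
        ((fun l => ((r l : ℕ) : ℤ) : Fin d → ℤ) : (Fin d → ℤ) ⧸ H)) ?_
      rintro ⟨u⟩
      have hD0 : 0 < D := hD ▸ Int.natAbs_pos.2 hdet
      refine ⟨fun l => ⟨(u l % (Matrix.of W).det).toNat, ?_⟩, ?_⟩
      · have h1 := Int.emod_nonneg (u l) hdet
        have h2 := Int.emod_lt_abs (u l) hdet
        rw [← Int.natCast_natAbs, ← hD] at h2
        omega
      · refine QuotientAddGroup.eq.2 ?_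
        convert hmem (fun l => u l / (Matrix.of W).det) using 1
        funext l
        have h1 := Int.emod_nonneg (u l) hdet
        have h2 := Int.mul_ediv_add_emod (u l) (Matrix.of W).det
        simp [max_eq_left h1]
        linarith
    exact AddSubgroup.index_ne_zero_of_finite

end Vale.Agent.P043
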