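import Mathlib

/-!
# P043: a rigid fundamental domain of `ℤ^d` in `ℝ^d`

`cubeQ d` is the unit cube with `d` small boxes removed from its deep interior and re-inserted
one unit further along the `i`-th axis.  The `i`-th box has twice the side in direction `i`,
so that no box fits into another one.  Every measurable tiling of `ℝ^d` by translates of
`cubeQ d` is a translate of `ℤ^d` (`cubeQ_rigid`).
-/

namespace Vale.Agent.P043.Euclid

open MeasureTheory Set

variable {d : ℕ}

/-- Half-open box. -/
def box (lo hi : Fin d → ℝ) : Set (Fin d → ℝ) := {x | ∀ k, lo k ≤ x k ∧ x k < hi k}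

/-- The translate `S + a`. -/
def tr (a : Fin d → ℝ) (S : Set (Fin d → ℝ)) : Set (Fin d → ℝ) := {x | x - a ∈ S}

/-- The integer point as a real point. -/
def toR (n : Fin d → ℤ) : Fin d → ℝ := fun k => (n k : ℝ)

/-- The basic length. -/
noncomputable def del (d : ℕ) : ℝ := 1 / (40 * ((d : ℝ) + 1))

/-- Lower corner coordinate of the `i`-th hole. -/
noncomputable def cc (i : Fin d) : ℝ := 2 / 5 + 4 * del d * ((i : ℕ) : ℝ)

/-- Side lengths of the `i`-th hole. -/
noncomputable def side (i k : Fin d) : ℝ := if k = i then 2 * del d else del d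

/-- The `i`-th hole. -/
noncomputable def hole (i : Fin d) : Set (Fin d → ℝ) :=
  box (fun _ => cc i) (fun k => cc i + side i k)

/-- The unit cube. -/
def cube (d : ℕ) : Set (Fin d → ℝ) := box (fun _ => 0) (fun _ => 1)

/-- The rigid fundamental domain. -/
noncomputable def cubeQ (d : ℕ) : Set (Fin d → ℝ) :=
  (cube d \ ⋃ i, hole i) ∪ ⋃ i, tr (Pi.single i 1) (hole i)

lemma del_pos : 0 < del d := by unfold del; positivity

lemma side_bounds (i k : Fin d) : del d ≤ side i k ∧ side i k ≤ 2 * del d := by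
  have := del_pos (d := d)
  unfold side; split_ifs <;> constructor <;> linarith

lemma cc_bounds (i : Fin d) : 2 / 5 ≤ cc i ∧ cc i + 4 * del d ≤ 1 / 2 := by
  have h0 := del_pos (d := d)
  have hi : ((i : ℕ) : ℝ) + 1 ≤ (d : ℝ) := by exact_mod_cast i.isLt
  have h1 : del d * (40 * ((d : ℝ) + 1)) = 1 := by
    have : (40 * ((d : ℝ) + 1)) ≠ 0 := by positivity
    unfold del; field_simp
  have h2 : (0 : ℝ) ≤ ((i : ℕ) : ℝ) := by positivity
  constructor <;> unfold cc <;> nlinarith [mul_le_mul_of_nonneg_left hi h0.le]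

/-- Distinct holes are far apart in every coordinate. -/
lemma cc_sep {i j : Fin d} (h : i ≠ j) : cc i + 4 * del d ≤ cc j ∨ cc j + 4 * del d ≤ cc i := by
  have h0 := del_pos (d := d)
  rcases lt_or_gt_of_ne h with hlt | hlt
  · left
    have : ((i : ℕ) : ℝ) + 1 ≤ ((j : ℕ) : ℝ) := by exact_mod_cast hlt
    unfold cc; nlinarith [mul_le_mul_of_nonneg_left this h0.le]
  · right
    have : ((j : ℕ) : ℝ) + 1 ≤ ((i : ℕ) : ℝ) := by exact_mod_cast hlt
    unfold cc; nlinarith [mul_le_mul_of_nonneg_left this h0.le]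

lemma hole_mid {i : Fin d} {x : Fin d → ℝ} (hx : x ∈ hole i) (k : Fin d) :
    2 / 5 ≤ x k ∧ x k < 3 / 5 := by
  obtain ⟨h1, h2⟩ : cc i ≤ x k ∧ x k < cc i + side i k := hx k
  have := cc_bounds i; have := side_bounds i k; have := del_pos (d := d)
  constructor <;> linarith

lemma hole_subset_cube (i : Fin d) : hole i ⊆ cube d := fun x hx k => by
  obtain ⟨h1, h2⟩ := hole_mid hx k
  show (0 : ℝ) ≤ x k ∧ x k < 1
  constructor <;> linarith

lemma hole_unique {i j : Fin d} {x : Fin d → ℝ} (hi : x ∈ hole i) (hj : x ∈ hole j) : i = j := by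
  by_contra h
  obtain ⟨a1, a2⟩ : cc i ≤ x i ∧ x i < cc i + side i i := hi i
  obtain ⟨b1, b2⟩ : cc j ≤ x i ∧ x i < cc j + side j i := hj i
  have := side_bounds i i; have := side_bounds j i; have := del_pos (d := d)
  rcases cc_sep h with h' | h' <;> linarith

/-- Two integer translates of the cube containing the same point coincide. -/
lemma cube_unique {n m : Fin d → ℤ} {x : Fin d → ℝ} (hn : x - toR n ∈ cube d)
    (hm : x - toR m ∈ cube d) : n = m := by
  funext k
  obtain ⟨a1, a2⟩ : (0 : ℝ) ≤ x k - n k ∧ x k - n k < 1 := hn k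
  obtain ⟨b1, b2⟩ : (0 : ℝ) ≤ x k - m k ∧ x k - m k < 1 := hm k
  have e1 : n k < m k + 1 := by
    have : (n k : ℝ) < ((m k + 1 : ℤ) : ℝ) := by push_cast; linarith
    exact_mod_cast this
  have e2 : m k < n k + 1 := by
    have : (m k : ℝ) < ((n k + 1 : ℤ) : ℝ) := by push_cast; linarith
    exact_mod_cast this
  omega

lemma toR_add_single (n : Fin d → ℤ) (i : Fin d) (x : Fin d → ℝ) :
    x - toR n - Pi.single i 1 = x - toR (n + Pi.single i 1) := by
  funext k
  by_cases h : k = i
  · subst h; simp [toR]; ring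
  · simp [toR, h]

lemma mem_cubeQ_cases {n : Fin d → ℤ} {x : Fin d → ℝ} (h : x - toR n ∈ cubeQ d) :
    (x - toR n ∈ cube d ∧ ∀ i, x - toR n ∉ hole i) ∨
      ∃ i, x - toR (n + Pi.single i 1) ∈ hole i := by
  rcases h with h | h
  · exact Or.inl ⟨h.1, fun i hi => h.2 (mem_iUnion.2 ⟨i, hi⟩)⟩
  · obtain ⟨i, hi⟩ := mem_iUnion.1 h
    refine Or.inr ⟨i, ?_⟩
    rw [← toR_add_single]; exact hi

/-- `cubeQ d` meets every coset of `ℤ^d` exactly once. -/
lemma cubeQ_existsUnique (x : Fin d → ℝ) : ∃! n : Fin d → ℤ, x - toR n ∈ cubeQ d := by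
  classical
  let f : Fin d → ℤ := fun k => ⌊x k⌋
  have hf : x - toR f ∈ cube d := fun k => by
    show (0 : ℝ) ≤ x k - (⌊x k⌋ : ℝ) ∧ x k - (⌊x k⌋ : ℝ) < 1
    constructor
    · linarith [Int.floor_le (x k)]
    · linarith [Int.lt_floor_add_one (x k)]
  refine existsUnique_of_exists_of_unique ?_ ?_
  · by_cases h : ∃ i, x - toR f ∈ hole i
    · obtain ⟨i, hi⟩ := h
      refine ⟨f - Pi.single i 1, Or.inr (mem_iUnion.2 ⟨i, ?_⟩)⟩
      show x - toR (f - Pi.single i 1) - Pi.single i 1 ∈ hole i
      rw [toR_add_single, sub_add_cancel]; exact hi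
    · exact ⟨f, Or.inl ⟨hf, fun hx => h (mem_iUnion.1 hx)⟩⟩
  · intro n m hn hm
    rcases mem_cubeQ_cases hn with ⟨hn, hn'⟩ | ⟨i, hi⟩ <;>
      rcases mem_cubeQ_cases hm with ⟨hm, hm'⟩ | ⟨j, hj⟩
    · exact cube_unique hn hm
    · have e := cube_unique hn (hole_subset_cube j hj)
      exact absurd (e ▸ hj) (hn' j)
    · have e := cube_unique hm (hole_subset_cube i hi)
      exact absurd (e ▸ hi) (hm' i)
    · have e := cube_unique (hole_subset_cube i hi) (hole_subset_cube j hj)
      rw [← e] at hj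
      have hij := hole_unique hi hj
      subst hij
      exact add_right_cancel e

/-! ### Measure -/

lemma box_eq_pi (lo hi : Fin d → ℝ) : box lo hi = Set.pi univ fun k => Ico (lo k) (hi k) := by
  ext x; simp [box, Set.mem_pi]

lemma measurableSet_box (lo hi : Fin d → ℝ) : MeasurableSet (box lo hi) := by
  rw [box_eq_pi]; exact MeasurableSet.univ_pi fun _ => measurableSet_Ico

lemma box_volume_ne_zero {lo hi : Fin d → ℝ} (h : ∀ k, lo k < hi k) :
    volume (box lo hi) ≠ 0 := by
  rw [box_eq_pi, Real.volume_pi_Ico]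
  exact Finset.prod_ne_zero_iff.2 fun k _ => by
    simpa [ENNReal.ofReal_eq_zero] using h k

lemma tr_eq_preimage (a : Fin d → ℝ) (S : Set (Fin d → ℝ)) : tr a S = (fun x => x + -a) ⁻¹' S := by
  ext x; simp [tr, sub_eq_add_neg]

lemma tr_volume (a : Fin d → ℝ) (S : Set (Fin d → ℝ)) : volume (tr a S) = volume S := by
  rw [tr_eq_preimage, measure_preimage_add_right]

lemma tr_box (a lo hi : Fin d → ℝ) : tr a (box lo hi) = box (lo + a) (hi + a) := by
  ext x; simp [tr, box, le_sub_iff_add_le, sub_lt_iff_lt_add]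

lemma measurableSet_cubeQ : MeasurableSet (cubeQ d) := by
  refine MeasurableSet.union ((measurableSet_box _ _).diff
    (MeasurableSet.iUnion fun i => measurableSet_box _ _)) (MeasurableSet.iUnion fun i => ?_)
  rw [hole, tr_box]; exact measurableSet_box _ _

lemma cubeQ_volume_ne_zero : volume (cubeQ d) ≠ 0 := by
  refine fun h => box_volume_ne_zero (d := d) (lo := fun _ => 0) (hi := fun _ => 1 / 5)
    (fun _ => by norm_num) (measure_mono_null ?_ h)
  intro x hx
  refine Or.inl ⟨fun k => ?_, fun h' => ?_⟩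
  · obtain ⟨h1, h2⟩ : (0 : ℝ) ≤ x k ∧ x k < 1 / 5 := hx k
    show (0 : ℝ) ≤ x k ∧ x k < 1
    constructor <;> linarith
  · obtain ⟨i, hi⟩ := mem_iUnion.1 h'
    have := hole_mid hi i
    obtain ⟨h1, h2⟩ : (0 : ℝ) ≤ x i ∧ x i < 1 / 5 := hx i
    linarith

lemma cubeQ_bound {x : Fin d → ℝ} (hx : x ∈ cubeQ d) (k : Fin d) : 0 ≤ x k ∧ x k ≤ 2 := by
  rcases hx with h | h
  · obtain ⟨h1, h2⟩ : (0 : ℝ) ≤ x k ∧ x k < 1 := h.1 k
    constructor <;> linarith
  · obtain ⟨i, hi⟩ := mem_iUnion.1 h
    obtain ⟨h1, h2⟩ := hole_mid hi k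
    by_cases hk : k = i
    · subst hk; simp at h1 h2; constructor <;> linarith
    · simp [hk] at h1 h2; constructor <;> linarith

/-! ### Rigidity -/

/-- An interval in both `[0,1)` and `[v,v+1)` avoiding both middle fifths. -/
lemma exists_gap {v : ℝ} (hv : |v| < 1) : ∃ p q : ℝ, p < q ∧ ∀ x, p ≤ x → x < q →
    ((0 ≤ x ∧ x < 1) ∧ (x < 2 / 5 ∨ 3 / 5 ≤ x)) ∧
      ((0 ≤ x - v ∧ x - v < 1) ∧ (x - v < 2 / 5 ∨ 3 / 5 ≤ x - v)) := by
  obtain ⟨h1, h2⟩ := abs_lt.1 hv
  rcases le_total 0 v with h | h
  · by_cases a : 3 / 5 ≤ v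
    · exact ⟨v, 1, h2, fun x hp hq => ⟨⟨⟨by linarith, hq⟩, Or.inr (by linarith)⟩,
        ⟨⟨by linarith, by linarith⟩, Or.inl (by linarith)⟩⟩⟩
    · by_cases b : v ≤ 1 / 5
      · exact ⟨v, 2 / 5, by linarith, fun x hp hq => ⟨⟨⟨by linarith, by linarith⟩, Or.inl hq⟩,
          ⟨⟨by linarith, by linarith⟩, Or.inl (by linarith)⟩⟩⟩
      · exact ⟨3 / 5, v + 2 / 5, by linarith, fun x hp hq =>
          ⟨⟨⟨by linarith, by linarith⟩, Or.inr hp⟩,
          ⟨⟨by linarith, by linarith⟩, Or.inl (by linarith)⟩⟩⟩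
  · by_cases a : v ≤ -(3 / 5)
    · exact ⟨0, 1 + v, by linarith, fun x hp hq => ⟨⟨⟨hp, by linarith⟩, Or.inl (by linarith)⟩,
        ⟨⟨by linarith, by linarith⟩, Or.inr (by linarith)⟩⟩⟩
    · by_cases b : -(1 / 5) ≤ v
      · exact ⟨0, v + 2 / 5, by linarith, fun x hp hq => ⟨⟨⟨hp, by linarith⟩, Or.inl (by linarith)⟩,
          ⟨⟨by linarith, by linarith⟩, Or.inl (by linarith)⟩⟩⟩
      · exact ⟨v + 3 / 5, 2 / 5, by linarith, fun x hp hq =>
          ⟨⟨⟨by linarith, by linarith⟩, Or.inl hq⟩,
          ⟨⟨by linarith, by linarith⟩, Or.inr (by linarith)⟩⟩⟩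

/-- Almost disjoint translates of `cubeQ` have disjoint cubes. -/
lemma separated {a b : Fin d → ℝ} (h : ∀ k, |b k - a k| < 1) :
    volume (tr a (cubeQ d) ∩ tr b (cubeQ d)) ≠ 0 := by
  classical
  choose p q hpq hx using fun k => exists_gap (h k)
  refine fun h0 => box_volume_ne_zero (lo := fun k => a k + p k) (hi := fun k => a k + q k)
    (fun k => by linarith [hpq k]) (measure_mono_null ?_ h0)
  intro y hy
  have hy' : ∀ k, _ := fun k => hx k (y k - a k) (by linarith [(hy k).1]) (by linarith [(hy k).2])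
  constructor
  · refine Or.inl ⟨fun k => (hy' k).1.1, fun hh => ?_⟩
    obtain ⟨i, hi⟩ := mem_iUnion.1 hh
    have hm : 2 / 5 ≤ y i - a i ∧ y i - a i < 3 / 5 := hole_mid hi i
    rcases (hy' i).1.2 with c | c <;> linarith [hm.1, hm.2]
  · refine Or.inl ⟨fun k => ?_, fun hh => ?_⟩
    · obtain ⟨c1, c2⟩ := (hy' k).2.1
      show (0 : ℝ) ≤ y k - b k ∧ y k - b k < 1
      constructor <;> linarith
    · obtain ⟨i, hi⟩ := mem_iUnion.1 hh
      have hm : 2 / 5 ≤ y i - b i ∧ y i - b i < 3 / 5 := hole_mid hi i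
      rcases (hy' i).2.2 with c | c <;> linarith [hm.1, hm.2]

/-- The hole of one tile can only be filled by the matching bump of the neighbour. -/
lemma fill_hole {a b : Fin d → ℝ} {i : Fin d}
    (hab : volume (tr a (cubeQ d) ∩ tr b (cubeQ d)) = 0)
    (hpos : volume (tr a (hole i) ∩ tr b (cubeQ d)) ≠ 0) : b = a - Pi.single i 1 := by
  classical
  obtain ⟨x, hxa, hxb⟩ := nonempty_of_measure_ne_zero hpos
  have far : ∃ k, 1 ≤ |b k - a k| := by
    by_contra hc; push Not at hc; exact separated hc hab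
  rcases hxb with hxb | hxb
  · obtain ⟨k, hk⟩ := far
    obtain ⟨c1, c2⟩ : (0 : ℝ) ≤ x k - a k ∧ x k - a k < 1 := hole_subset_cube i hxa k
    obtain ⟨e1, e2⟩ : (0 : ℝ) ≤ x k - b k ∧ x k - b k < 1 := hxb.1 k
    rcases le_abs'.1 hk with hk | hk <;> linarith
  obtain ⟨j, hxb⟩ := mem_iUnion.1 hxb
  -- `w k` is the lower corner of the bump, in the coordinates of the tile `a`
  set w : Fin d → ℝ := fun k => b k - a k + (Pi.single j 1 : Fin d → ℝ) k + cc j with hw
  have meet : ∀ k, cc i ≤ x k - a k ∧ x k - a k < cc i + side i k ∧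
      w k ≤ x k - a k ∧ x k - a k < w k + side j k := by
    intro k
    obtain ⟨c1, c2⟩ : cc i ≤ x k - a k ∧ x k - a k < cc i + side i k := hxa k
    obtain ⟨e1, e2⟩ : cc j ≤ x k - b k - (Pi.single j 1 : Fin d → ℝ) k ∧
        x k - b k - (Pi.single j 1 : Fin d → ℝ) k < cc j + side j k := hxb k
    refine ⟨c1, c2, ?_, ?_⟩ <;> simp only [hw] <;> linarith
  -- a point of the bump which is in the cube of `a` but outside hole `i` is in both tiles
  have key : ∀ y : Fin d → ℝ, (∀ k, w k ≤ y k - a k ∧ y k - a k < w k + side j k) →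
      (∃ k, y k - a k < cc i ∨ cc i + side i k ≤ y k - a k) →
      y ∈ tr a (cubeQ d) ∩ tr b (cubeQ d) := by
    intro y hy hout
    refine ⟨Or.inl ⟨fun k => ?_, fun hh => ?_⟩, Or.inr (mem_iUnion.2 ⟨j, fun k => ?_⟩)⟩
    · obtain ⟨m1, m2, m3, m4⟩ := meet k
      obtain ⟨y1, y2⟩ := hy k
      have := cc_bounds i; have := side_bounds i k; have := side_bounds j k
      have := del_pos (d := d)
      show (0 : ℝ) ≤ y k - a k ∧ y k - a k < 1
      constructor <;> linarith
    · obtain ⟨l, hl⟩ := mem_iUnion.1 hh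
      obtain ⟨k, hk⟩ := hout
      obtain ⟨l1, l2⟩ : cc l ≤ y k - a k ∧ y k - a k < cc l + side l k := hl k
      by_cases hli : l = i
      · subst hli; rcases hk with hk | hk <;> linarith
      · obtain ⟨m1, m2, m3, m4⟩ := meet k
        obtain ⟨y1, y2⟩ := hy k
        have := side_bounds i k; have := side_bounds j k; have := side_bounds l k
        rcases cc_sep hli with hs | hs <;> linarith
    · obtain ⟨y1, y2⟩ := hy k
      show cc j ≤ y k - b k - (Pi.single j 1 : Fin d → ℝ) k ∧
        y k - b k - (Pi.single j 1 : Fin d → ℝ) k < cc j + side j k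
      simp only [hw] at y1 y2
      constructor <;> linarith
  have incl : ∀ k, cc i ≤ w k ∧ w k + side j k ≤ cc i + side i k := by
    intro k
    obtain ⟨m1, m2, m3, m4⟩ := meet k
    constructor
    · by_contra hc
      push Not at hc
      refine box_volume_ne_zero (lo := fun l => a l + w l)
        (hi := fun l => if l = k then a l + cc i else a l + w l + side j l) ?_
        (measure_mono_null ?_ hab)
      · intro l
        have := side_bounds j l; have := del_pos (d := d)
        by_cases hl : l = k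
        · simp only [hl, if_true]; linarith
        · simp only [hl, if_false]; linarith
      · intro y hy
        refine key y (fun l => ?_) ⟨k, Or.inl ?_⟩
        · obtain ⟨y1, y2⟩ := hy l
          refine ⟨by linarith, ?_⟩
          by_cases hl : l = k
          · subst hl; simp only [if_true] at y2; linarith
          · simp only [hl, if_false] at y2; linarith
        · have y2 := (hy k).2
          simp only [if_true] at y2; linarith
    · by_contra hc
      push Not at hc
      refine box_volume_ne_zero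
        (lo := fun l => if l = k then a l + (cc i + side i l) else a l + w l)
        (hi := fun l => a l + w l + side j l) ?_ (measure_mono_null ?_ hab)
      · intro l
        have := side_bounds j l; have := del_pos (d := d)
        by_cases hl : l = k
        · subst hl; simp only [if_true]; linarith
        · simp only [hl, if_false]; linarith
      · intro y hy
        refine key y (fun l => ?_) ⟨k, Or.inr ?_⟩
        · obtain ⟨y1, y2⟩ := hy l
          refine ⟨?_, by linarith⟩
          by_cases hl : l = k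
          · subst hl; simp only [if_true] at y1; linarith
          · simp only [hl, if_false] at y1; linarith
        · have y1 := (hy k).1
          simp only [if_true] at y1; linarith
  have hij : j = i := by
    by_contra hne
    have h := incl j
    simp only [side, hne, if_false, if_true] at h
    linarith [del_pos (d := d), h.1, h.2]
  subst hij
  funext k
  have h := incl k
  simp only [hw] at h
  simp only [Pi.sub_apply]
  linarith [h.1, h.2]

/-- **Rigidity.** A tiling of `ℝ^d` by translates of `cubeQ d` is a translate of `ℤ^d`. -/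
theorem cubeQ_rigid {A : Set (Fin d → ℝ)}
    (hcov : volume (⋃ a ∈ A, tr a (cubeQ d))ᶜ = 0)
    (hdis : A.Pairwise fun a b => volume (tr a (cubeQ d) ∩ tr b (cubeQ d)) = 0) :
    ∃ x, A = range fun n : Fin d → ℤ => x + toR n := by
  classical
  have huniv : volume (univ : Set (Fin d → ℝ)) ≠ 0 := fun h =>
    cubeQ_volume_ne_zero (measure_mono_null (subset_univ _) h)
  obtain ⟨x, hx⟩ : A.Nonempty := by
    rcases A.eq_empty_or_nonempty with h | h
    · subst h; simp at hcov; exact absurd hcov (by simpa using huniv)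
    · exact h
  have sep : ∀ a ∈ A, ∀ b ∈ A, (∀ k, |b k - a k| < 1) → a = b := by
    intro a ha b hb h
    by_contra hne
    exact separated h (hdis ha hb hne)
  have hA : A.Countable := by
    refine MapsTo.countable_of_injOn (f := fun (a : Fin d → ℝ) (k : Fin d) => ⌊a k⌋)
      (t := univ) (fun _ _ => mem_univ _) ?_ countable_univ
    intro a ha b hb h
    exact sep a ha b hb fun k => Int.abs_sub_lt_one_of_floor_eq_floor (congrFun h k).symm
  -- each tile has a neighbour below it in every axis direction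
  have down : ∀ a ∈ A, ∀ i, a - Pi.single i 1 ∈ A := by
    intro a ha i
    have hhole : volume (tr a (hole i)) ≠ 0 := by
      rw [tr_volume]
      exact box_volume_ne_zero fun k => by linarith [side_bounds i k, del_pos (d := d)]
    obtain ⟨b, hb, hpos⟩ : ∃ b ∈ A, volume (tr a (hole i) ∩ tr b (cubeQ d)) ≠ 0 := by
      by_contra hc
      push Not at hc
      apply hhole
      have : tr a (hole i) ⊆
          (⋃ b ∈ A, tr a (hole i) ∩ tr b (cubeQ d)) ∪ (⋃ b ∈ A, tr b (cubeQ d))ᶜ := by
        intro y hy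
        by_cases h : y ∈ ⋃ b ∈ A, tr b (cubeQ d)
        · obtain ⟨b, hb, hyb⟩ := mem_iUnion₂.1 h
          exact Or.inl (mem_iUnion₂.2 ⟨b, hb, hy, hyb⟩)
        · exact Or.inr h
      exact measure_mono_null this
        (measure_union_null ((measure_biUnion_null_iff hA).2 hc) hcov)
    have hne : a ≠ b := by
      rintro rfl
      obtain ⟨y, hy, hy'⟩ := nonempty_of_measure_ne_zero hpos
      rcases hy' with hy' | hy'
      · exact hy'.2 (mem_iUnion.2 ⟨i, hy⟩)
      · obtain ⟨j, hj⟩ := mem_iUnion.1 hy'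
        have h1 : 2 / 5 ≤ y j - a j ∧ y j - a j < 3 / 5 := hole_mid hy j
        have h2 := hole_mid hj j
        simp at h2
        linarith [h1.2, h2.1]
    rwa [← fill_hole (hdis ha hb hne) hpos]
  have downN : ∀ (n : Fin d → ℕ), ∀ a ∈ A, (fun k => a k - (n k : ℝ)) ∈ A := by
    intro n a ha
    have : ∀ s : Finset (Fin d), (fun k => a k - if k ∈ s then (n k : ℝ) else 0) ∈ A := by
      intro s
      induction s using Finset.induction with
      | empty => simpa using ha
      | @insert i s his ih =>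
        have : ∀ m : ℕ, ((fun k => a k - if k ∈ s then (n k : ℝ) else 0) -
            (m : ℝ) • (Pi.single i 1 : Fin d → ℝ)) ∈ A := by
          intro m
          induction m with
          | zero => simpa using ih
          | succ m ihm =>
            convert down _ ihm i using 1
            push_cast; rw [add_smul, one_smul]; abel
        convert this (n i) using 1
        funext k
        by_cases hk : k = i
        · subst hk; simp [his]
        · simp [hk]
    simpa using this Finset.univ
  have sub : A ⊆ range fun n : Fin d → ℤ => x + toR n := by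
    intro a ha
    let m : Fin d → ℤ := fun k => ⌊a k - x k⌋
    have h3 : ∀ k, ((m k).toNat : ℝ) - ((-m k).toNat : ℝ) = (m k : ℝ) := by
      intro k
      have : ((m k).toNat : ℤ) - ((-m k).toNat : ℤ) = m k := by omega
      exact_mod_cast this
    have h := sep _ (downN (fun k => (-m k).toNat) x hx) _ (downN (fun k => (m k).toNat) a ha)
      fun k => by
        have h1 := Int.floor_le (a k - x k)
        have h2 := Int.lt_floor_add_one (a k - x k)
        have h3 := h3 k
        rw [abs_lt]
        simp only [m] at h3 ⊢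
        constructor <;> linarith
    refine ⟨m, funext fun k => ?_⟩
    have h' := congrFun h k
    have h3 := h3 k
    simp only [Pi.add_apply, toR] at h' ⊢
    linarith
  refine ⟨x, Subset.antisymm sub ?_⟩
  rintro _ ⟨n, rfl⟩
  by_contra hn
  refine cubeQ_volume_ne_zero (d := d) ?_
  rw [← tr_volume (x + toR n)]
  refine measure_mono_null ?_ hcov
  intro y hy hy'
  obtain ⟨a, ha, hya⟩ := mem_iUnion₂.1 hy'
  obtain ⟨m, rfl⟩ := sub ha
  have e : n = m := (cubeQ_existsUnique (y - x)).unique
    (by simpa [tr, sub_sub] using hy) (by simpa [tr, sub_sub] using hya)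
  exact hn (e ▸ ha)

end Vale.Agent.P043.Euclid
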