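import Vale.Agent.P043.EuclidLift

/-!
# P043: the Euclidean tile is a finite union of cubes of a rational grid
-/

namespace Vale.Agent.P043.Euclid

open Set

variable {d : ℕ}

/-- The number of grid steps in one unit. -/
def gridN (d : ℕ) : ℕ := 40 * (d + 1)

/-- Two points in the same cell of the grid. -/
def SameCell (x y : Fin d → ℝ) : Prop :=
  ∀ k, ⌊(gridN d : ℝ) * x k⌋ = ⌊(gridN d : ℝ) * y k⌋

lemma gridN_pos : (0 : ℝ) < (gridN d : ℝ) := by unfold gridN; positivity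

lemma del_mul : del d * (gridN d : ℝ) = 1 := by
  unfold del gridN; push_cast
  have : (40 * ((d : ℝ) + 1)) ≠ 0 := by positivity
  field_simp

lemma SameCell.symm {x y : Fin d → ℝ} (h : SameCell x y) : SameCell y x := fun k => (h k).symm

lemma SameCell.sub {x y : Fin d → ℝ} (h : SameCell x y) (n : Fin d → ℤ) :
    SameCell (x - toR n) (y - toR n) := by
  intro k
  have e : ∀ z : ℝ, (gridN d : ℝ) * (z - (n k : ℝ)) =
      (gridN d : ℝ) * z - (((gridN d : ℤ) * n k : ℤ) : ℝ) := fun z => by push_cast; ring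
  simp only [Pi.sub_apply, toR, e, Int.floor_sub_intCast, h k]

lemma SameCell.box_mem {x y : Fin d → ℝ} (h : SameCell x y) {lo hi : Fin d → ℝ} {p q : Fin d → ℤ}
    (hp : ∀ k, lo k * (gridN d : ℝ) = p k) (hq : ∀ k, hi k * (gridN d : ℝ) = q k)
    (hx : x ∈ box lo hi) : y ∈ box lo hi := by
  intro k
  obtain ⟨h1, h2⟩ := hx k
  have hN := gridN_pos (d := d)
  have a1 : p k ≤ ⌊(gridN d : ℝ) * x k⌋ := Int.le_floor.2 (by rw [← hp k]; nlinarith)
  have a2 : ⌊(gridN d : ℝ) * x k⌋ < q k := Int.floor_lt.2 (by rw [← hq k]; nlinarith)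
  rw [h k] at a1 a2
  rw [Int.le_floor, ← hp k] at a1
  rw [Int.floor_lt, ← hq k] at a2
  constructor <;> nlinarith

lemma hole_cell {x y : Fin d → ℝ} (h : SameCell x y) {i : Fin d} (hx : x ∈ hole i) :
    y ∈ hole i := by
  classical
  refine h.box_mem (p := fun _ => 16 * ((d : ℤ) + 1) + 4 * ((i : ℕ) : ℤ))
    (q := fun k => 16 * ((d : ℤ) + 1) + 4 * ((i : ℕ) : ℤ) + if k = i then 2 else 1)
    (fun k => ?_) (fun k => ?_) hx
  · have h1 := del_mul (d := d)
    have h2 : (gridN d : ℝ) = 40 * ((d : ℝ) + 1) := by simp [gridN]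
    unfold cc
    push_cast
    linear_combination 4 * ((i : ℕ) : ℝ) * h1 + (2 / 5 : ℝ) * h2
  · have h1 := del_mul (d := d)
    have h2 : (gridN d : ℝ) = 40 * ((d : ℝ) + 1) := by simp [gridN]
    unfold cc side
    split_ifs
    · push_cast; linear_combination (4 * ((i : ℕ) : ℝ) + 2) * h1 + (2 / 5 : ℝ) * h2
    · push_cast; linear_combination (4 * ((i : ℕ) : ℝ) + 1) * h1 + (2 / 5 : ℝ) * h2

lemma cubeQ_cell {x y : Fin d → ℝ} (h : SameCell x y) (hx : x ∈ cubeQ d) : y ∈ cubeQ d := by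
  classical
  rcases hx with ⟨hc, hh⟩ | hb
  · refine Or.inl ⟨h.box_mem (p := fun _ => 0) (q := fun _ => (gridN d : ℤ)) (by simp) (by simp) hc,
      fun hy => hh ?_⟩
    obtain ⟨i, hi⟩ := mem_iUnion.1 hy
    exact mem_iUnion.2 ⟨i, hole_cell h.symm hi⟩
  · obtain ⟨i, hi⟩ := mem_iUnion.1 hb
    refine Or.inr (mem_iUnion.2 ⟨i, ?_⟩)
    have e : toR (Pi.single i 1 : Fin d → ℤ) = (Pi.single i 1 : Fin d → ℝ) := by
      funext k; by_cases hk : k = i
      · subst hk; simp [toR]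
      · simp [toR, hk]
    show y - Pi.single i 1 ∈ hole i
    rw [← e]
    refine hole_cell (h.sub _) ?_
    rw [e]; exact hi

lemma omega_cell {F : Finset (Fin d → ℤ)} {x y : Fin d → ℝ} (h : SameCell x y)
    (hx : x ∈ omega F) : y ∈ omega F := by
  obtain ⟨f, hf, hx⟩ := mem_iUnion₂.1 hx
  exact mem_iUnion₂.2 ⟨f, hf, cubeQ_cell (h.sub f) hx⟩

/-- The tile consists of finitely many cells of the grid. -/
lemma omega_grid (F : Finset (Fin d → ℤ)) : ∃ N : ℕ, 0 < N ∧ ∃ S : Finset (Fin d → ℤ),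
    omega F = {x | (fun k => ⌊(N : ℝ) * x k⌋) ∈ S} := by
  classical
  let cell : (Fin d → ℝ) → Fin d → ℤ := fun x k => ⌊(gridN d : ℝ) * x k⌋
  obtain ⟨r, hr⟩ := (omega_bounded F).exists_norm_le
  have fin : (cell '' omega F).Finite := by
    refine Set.Finite.subset (Set.finite_Icc (fun _ : Fin d => ⌊-((gridN d : ℝ) * r)⌋)
      (fun _ => ⌊(gridN d : ℝ) * r⌋)) ?_
    rintro _ ⟨x, hx, rfl⟩
    have hN := gridN_pos (d := d)
    refine ⟨fun k => Int.floor_mono ?_, fun k => Int.floor_mono ?_⟩ <;>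
    · have h1 := abs_le.1 (((Real.norm_eq_abs _).symm.le.trans (norm_le_pi_norm x k)).trans (hr x hx))
      nlinarith [h1.1, h1.2]
  refine ⟨gridN d, by unfold gridN; omega, fin.toFinset, Set.ext fun x => ?_⟩
  simp only [mem_setOf_eq, Set.Finite.mem_toFinset]
  constructor
  · intro hx; exact ⟨x, hx, rfl⟩
  · rintro ⟨z, hz, e⟩
    exact omega_cell (fun k => congrFun e k) hz

end Vale.Agent.P043.Euclid
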