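import Vale.Agent.P043.EuclidCube

/-!
# P043: from a counterexample in `ℤ^d` to a counterexample in `ℝ^d`

If a finite `F ⊂ ℤ^d` tiles `ℤ^d` with no periodic tiling, then `F + cubeQ d` is a bounded
measurable tile of `ℝ^d` with no periodic tiling.
-/

namespace Vale.Agent.P043.Euclid

open MeasureTheory Set

variable {d : ℕ}

lemma tr_eq_image (a : Fin d → ℝ) (S : Set (Fin d → ℝ)) : tr a S = (fun y => y + a) '' S := by
  ext y
  constructor
  · intro h; exact ⟨y - a, h, sub_add_cancel y a⟩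
  · rintro ⟨z, hz, rfl⟩; simpa [tr] using hz

/-- The tile `F + cubeQ d`. -/
noncomputable def omega (F : Finset (Fin d → ℤ)) : Set (Fin d → ℝ) :=
  ⋃ f ∈ F, tr (toR f) (cubeQ d)

lemma tr_tr (a b : Fin d → ℝ) (S : Set (Fin d → ℝ)) : tr a (tr b S) = tr (a + b) S := by
  ext y; simp [tr, sub_sub]

lemma mem_tr_omega {a : Fin d → ℝ} {F : Finset (Fin d → ℤ)} {y : Fin d → ℝ} :
    y ∈ tr a (omega F) ↔ ∃ f ∈ F, y ∈ tr (a + toR f) (cubeQ d) := by
  simp [tr, omega, sub_sub]

lemma measurableSet_omega (F : Finset (Fin d → ℤ)) : MeasurableSet (omega F) := by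
  refine Finset.measurableSet_biUnion F fun f _ => ?_
  rw [tr_eq_preimage]
  exact measurableSet_cubeQ.preimage (measurable_id.add_const _)

lemma omega_volume_pos {F : Finset (Fin d → ℤ)} (hF : F.Nonempty) : 0 < volume (omega F) := by
  obtain ⟨f, hf⟩ := hF
  refine lt_of_lt_of_le (pos_iff_ne_zero.2 ?_) (measure_mono (subset_biUnion_of_mem
    (u := fun f => tr (toR f) (cubeQ d)) hf))
  rw [tr_volume]; exact cubeQ_volume_ne_zero

lemma omega_bounded (F : Finset (Fin d → ℤ)) : Bornology.IsBounded (omega F) := by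
  refine (Bornology.isBounded_biUnion_finset F).2 fun f _ => ?_
  refine (Metric.isBounded_Icc (toR f) (toR f + fun _ => 2)).subset fun y hy => ?_
  have h := cubeQ_bound (show y - toR f ∈ cubeQ d from hy)
  refine ⟨fun k => ?_, fun k => ?_⟩ <;> have := h k <;>
    simp only [Pi.sub_apply, Pi.add_apply] at this ⊢ <;> linarith [this.1, this.2]

/-- A tiling of `ℤ^d` by `F` gives a tiling of `ℝ^d` by `omega F`. -/
theorem omega_tiles {F : Finset (Fin d → ℤ)} {B : Set (Fin d → ℤ)}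
    (hB : ∀ g, ∃! p : (Fin d → ℤ) × (Fin d → ℤ), p.1 ∈ B ∧ p.2 ∈ F ∧ p.1 + p.2 = g) :
    (⋃ a ∈ toR '' B, tr a (omega F)) = univ ∧
      (toR '' B).PairwiseDisjoint fun a => tr a (omega F) := by
  have hadd : ∀ b f : Fin d → ℤ, toR b + toR f = toR (b + f) := fun b f => by
    funext k; simp [toR]
  constructor
  · refine eq_univ_of_forall fun y => ?_
    obtain ⟨n, hn, -⟩ := cubeQ_existsUnique y
    obtain ⟨p, ⟨hp1, hp2, hp⟩, -⟩ := hB n
    refine mem_iUnion₂.2 ⟨toR p.1, mem_image_of_mem _ hp1, mem_tr_omega.2 ⟨p.2, hp2, ?_⟩⟩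
    rw [hadd, hp]; exact hn
  · rintro _ ⟨b, hb, rfl⟩ _ ⟨b', hb', rfl⟩ hne
    refine disjoint_left.2 fun y hy hy' => hne ?_
    obtain ⟨f, hf, hy⟩ := mem_tr_omega.1 hy
    obtain ⟨f', hf', hy'⟩ := mem_tr_omega.1 hy'
    rw [hadd] at hy hy'
    have e := (cubeQ_existsUnique y).unique hy hy'
    obtain ⟨p, -, hu⟩ := hB (b + f)
    have e1 := hu (b, f) ⟨hb, hf, rfl⟩
    have e2 := hu (b', f') ⟨hb', hf', e.symm⟩
    exact congrArg toR (congrArg Prod.fst (e1.trans e2.symm))

/-- Every tiling of `ℝ^d` by `omega F` comes from a tiling of `ℤ^d` by `F`. -/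
theorem tiling_of_omega {F : Finset (Fin d → ℤ)} (hF : F.Nonempty) {A : Set (Fin d → ℝ)}
    (hcov : volume (⋃ a ∈ A, tr a (omega F))ᶜ = 0)
    (hdis : A.Pairwise fun a b => volume (tr a (omega F) ∩ tr b (omega F)) = 0) :
    ∃ x, (∀ a ∈ A, ∃ n, a = x + toR n) ∧
      ∀ g, ∃! p : (Fin d → ℤ) × (Fin d → ℤ), x + toR p.1 ∈ A ∧ p.2 ∈ F ∧ p.1 + p.2 = g := by
  have hadd : ∀ b f : Fin d → ℤ, toR (b + f) = toR b + toR f := fun b f => by
    funext k; simp [toR]
  have hinj : Function.Injective (toR (d := d)) := fun b c h =>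
    funext fun k => by have := congrFun h k; simpa [toR] using this
  have sub : ∀ a, ∀ f ∈ F, tr (a + toR f) (cubeQ d) ⊆ tr a (omega F) :=
    fun a f hf y hy => mem_tr_omega.2 ⟨f, hf, hy⟩
  set A' : Set (Fin d → ℝ) := {c | ∃ a ∈ A, ∃ f ∈ F, c = a + toR f} with hA'
  have cov' : volume (⋃ c ∈ A', tr c (cubeQ d))ᶜ = 0 := by
    refine measure_mono_null (compl_subset_compl.2 fun y hy => ?_) hcov
    obtain ⟨a, ha, hy⟩ := mem_iUnion₂.1 hy
    obtain ⟨f, hf, hy⟩ := mem_tr_omega.1 hy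
    exact mem_iUnion₂.2 ⟨_, ⟨a, ha, f, hf, rfl⟩, hy⟩
  have dis' : A'.Pairwise fun a b => volume (tr a (cubeQ d) ∩ tr b (cubeQ d)) = 0 := by
    rintro _ ⟨a, ha, f, hf, rfl⟩ _ ⟨b, hb, g, hg, rfl⟩ hne
    by_cases hab : a = b
    · subst hab
      refine measure_mono_null ?_ measure_empty
      rintro y ⟨hy, hy'⟩
      have e : f = g := (cubeQ_existsUnique (y - a)).unique
        (by simpa [tr, sub_sub] using hy) (by simpa [tr, sub_sub] using hy')
      exact hne (by rw [e])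
    · exact measure_mono_null (inter_subset_inter (sub a f hf) (sub b g hg)) (hdis ha hb hab)
  obtain ⟨x, hx⟩ := cubeQ_rigid cov' dis'
  have coord : ∀ a ∈ A, ∃ n, a = x + toR n := by
    intro a ha
    obtain ⟨f, hf⟩ := hF
    obtain ⟨m, hm⟩ : a + toR f ∈ range fun n => x + toR n := hx ▸ ⟨a, ha, f, hf, rfl⟩
    refine ⟨m - f, eq_sub_of_add_eq hm.symm |>.trans ?_⟩
    funext k; simp [toR]; ring
  refine ⟨x, coord, fun g => ?_⟩
  obtain ⟨a, ha, f, hf, he⟩ : x + toR g ∈ A' := hx ▸ ⟨g, rfl⟩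
  obtain ⟨n, rfl⟩ := coord a ha
  have hg : n + f = g := hinj (by rw [hadd]; exact add_left_cancel (a := x) (by rw [he, add_assoc]))
  refine ⟨(n, f), ⟨ha, hf, hg⟩, ?_⟩
  rintro ⟨m, f'⟩ ⟨hm, hf', hg'⟩
  have hmn : m = n := by
    by_contra hne
    have hne' : x + toR m ≠ x + toR n := fun h => hne (hinj (add_left_cancel h))
    refine cubeQ_volume_ne_zero (d := d) ?_
    rw [← tr_volume (x + toR g)]
    refine measure_mono_null (subset_inter ?_ ?_) (hdis hm ha hne')
    · rw [← hg', hadd, ← add_assoc]; exact sub _ f' hf'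
    · rw [← hg, hadd, ← add_assoc]; exact sub _ f hf
  subst hmn
  rw [← hg] at hg'
  exact congrArg (Prod.mk m) (add_left_cancel hg')


/-- A set of integer points invariant under `d` independent vectors has a period `N` in every
axis direction. -/
lemma period_of_linearIndependent {B : Set (Fin d → ℤ)} {w : Fin d → Fin d → ℤ}
    (hli : LinearIndependent ℝ fun i => toR (w i)) (h : ∀ i n, n ∈ B ↔ n + w i ∈ B) :
    ∃ N : ℕ, 0 < N ∧ ∀ k n, n ∈ B ↔ n + Pi.single k (N : ℤ) ∈ B := by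
  classical
  let M : Matrix (Fin d) (Fin d) ℤ := Matrix.of w
  let H : AddSubgroup (Fin d → ℤ) :=
    { carrier := {u | ∀ n, n ∈ B ↔ n + u ∈ B}
      zero_mem' := fun n => by simp
      add_mem' := fun {u v} hu hv n => by rw [hu n, hv (n + u), add_assoc]
      neg_mem' := fun {u} hu n => by rw [hu (n + -u), neg_add_cancel_right] }
  have hdet : M.det ≠ 0 := by
    intro h0
    have h1 : IsUnit (M.map (Int.cast : ℤ → ℝ)).det :=
      (Matrix.isUnit_iff_isUnit_det _).1 (Matrix.linearIndependent_rows_iff_isUnit.1 hli)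
    have h2 : (M.map (Int.cast : ℤ → ℝ)).det = ((M.det : ℤ) : ℝ) :=
      ((Int.castRingHom ℝ).map_det M).symm
    rw [h2, h0] at h1
    simp at h1
  refine ⟨M.det.natAbs, Int.natAbs_pos.2 hdet, fun k => ?_⟩
  have hmem : (Pi.single k M.det : Fin d → ℤ) ∈ H := by
    have : (Pi.single k M.det : Fin d → ℤ) = ∑ i, M.adjugate k i • w i := by
      funext l
      have e := congrFun (congrFun M.adjugate_mul k) l
      simp only [Matrix.mul_apply, Matrix.smul_apply, Matrix.one_apply, M, Matrix.of_apply,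
        smul_eq_mul] at e
      simp only [Finset.sum_apply, Pi.smul_apply, smul_eq_mul]
      rw [e]
      by_cases hkl : l = k
      · subst hkl; simp [M]
      · simp [hkl, Ne.symm hkl]
    rw [this]
    exact H.sum_mem fun i _ => H.zsmul_mem (h i) _
  have : (Pi.single k ((M.det.natAbs : ℕ) : ℤ) : Fin d → ℤ) ∈ H := by
    rcases Int.natAbs_eq M.det with e | e
    · rw [← e]; exact hmem
    · have e' : ((M.det.natAbs : ℕ) : ℤ) = -M.det := by omega
      rw [e', Pi.single_neg]; exact H.neg_mem hmem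
  exact this

end Vale.Agent.P043.Euclid
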