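import Vale.Agent.P043.Main
import Vale.Agent.P043.EuclidGrid

/-!
# P043: the periodic tiling conjecture fails in `ℤ^d` and in `ℝ^d` for every `d ≥ 4`
-/

namespace Vale.Agent.P043.Euclid

open MeasureTheory Set

/-- The Euclidean form of the periodic tiling conjecture fails for every `d ≥ 4`. -/
theorem euclid_dim (d : ℕ) (hd : 4 ≤ d) :
    ∃ Ω : Set (Fin d → ℝ),
      (MeasurableSet Ω ∧ Bornology.IsBounded Ω ∧ 0 < volume Ω ∧
        ∃ N : ℕ, 0 < N ∧ ∃ S : Finset (Fin d → ℤ),
          Ω = {x | (fun k => ⌊(N : ℝ) * x k⌋) ∈ S}) ∧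
      (∃ A : Set (Fin d → ℝ), A.Countable ∧
        volume (⋃ a ∈ A, (fun y => y + a) '' Ω)ᶜ = 0 ∧
        A.Pairwise fun a b => volume ((fun y => y + a) '' Ω ∩ (fun y => y + b) '' Ω) = 0) ∧
      ∀ A : Set (Fin d → ℝ),
        volume (⋃ a ∈ A, (fun y => y + a) '' Ω)ᶜ = 0 →
        (A.Pairwise fun a b => volume ((fun y => y + a) '' Ω ∩ (fun y => y + b) '' Ω) = 0) →
        ¬∃ v : Fin d → Fin d → ℝ, LinearIndependent ℝ v ∧
          ∀ i, ∀ a, a + v i ∈ A ↔ a ∈ A := by
  classical
  obtain ⟨F, ⟨B₀, hB₀⟩, hno⟩ := Vale.Agent.P043.aperiodic_dim d hd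
  have hF : F.Nonempty := by
    obtain ⟨p, ⟨-, hp, -⟩, -⟩ := hB₀ 0
    exact ⟨p.2, hp⟩
  refine ⟨omega F, ⟨measurableSet_omega F, omega_bounded F, omega_volume_pos hF, omega_grid F⟩,
    ?_, fun A hcov hdis => ?_⟩
  · obtain ⟨h1, h2⟩ := omega_tiles hB₀
    refine ⟨toR '' B₀, B₀.to_countable.image _, ?_, ?_⟩
    · simp only [← tr_eq_image, h1, compl_univ, measure_empty]
    · intro a ha b hb hne
      simp only [← tr_eq_image]
      rw [(h2 ha hb hne).inter_eq, measure_empty]
  · simp only [← tr_eq_image] at hcov hdis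
    rintro ⟨v, hli, hv⟩
    obtain ⟨x, coord, hB⟩ := tiling_of_omega hF hcov hdis
    obtain ⟨p, ⟨hp, -, -⟩, -⟩ := hB 0
    have hw : ∀ i, ∃ w, toR w = v i := by
      intro i
      obtain ⟨n, hn⟩ := coord _ ((hv i _).2 hp)
      refine ⟨n - p.1, funext fun k => ?_⟩
      have := congrFun hn k
      simp only [toR, Pi.add_apply, Pi.sub_apply] at this ⊢
      push_cast; linarith
    choose w hw using hw
    obtain ⟨N, hN, hper⟩ := period_of_linearIndependent (B := {n | x + toR n ∈ A}) (w := w)
      (by have e : (fun i => toR (w i)) = v := funext hw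
          rw [e]; exact hli)
      (fun i n => by
        have e : x + toR (n + w i) = x + toR n + v i := by
          rw [← hw i]; funext k; simp [toR]; ring
        show x + toR n ∈ A ↔ x + toR (n + w i) ∈ A
        rw [e]; exact (hv i _).symm)
    -- the periods give a subgroup of finite index
    let m : (Fin d → ℤ) →+ (Fin d → ZMod N) :=
      { toFun := fun n k => (n k : ZMod N)
        map_zero' := by funext k; simp
        map_add' := fun a b => by funext k; simp }
    let H : AddSubgroup (Fin d → ℤ) :=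
      { carrier := {u | ∀ n, x + toR n ∈ A ↔ x + toR (n + u) ∈ A}
        zero_mem' := fun n => by simp
        add_mem' := fun {u u'} hu hu' n => by rw [hu n, hu' (n + u), add_assoc]
        neg_mem' := fun {u} hu n => by rw [hu (n + -u), neg_add_cancel_right] }
    haveI : NeZero N := ⟨hN.ne'⟩
    refine hno {n | x + toR n ∈ A} hB ⟨m.ker, ?_, fun h hh a => ?_⟩
    · rw [AddSubgroup.index_ker]; exact Nat.card_ne_zero.2 ⟨inferInstance, inferInstance⟩
    · have hH : h ∈ H := by
        have e : h = ∑ k, (h k / (N : ℤ)) • (Pi.single k (N : ℤ) : Fin d → ℤ) := by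
          funext l
          have hdvd : (N : ℤ) ∣ h l := (ZMod.intCast_zmod_eq_zero_iff_dvd _ _).1
            (congrFun (AddMonoidHom.mem_ker.1 hh) l)
          rw [Finset.sum_apply, Finset.sum_eq_single l]
          · simp [Int.ediv_mul_cancel hdvd]
          · intro b _ hb; simp [Ne.symm hb]
          · simp
        rw [e]
        exact H.sum_mem fun k _ => H.zsmul_mem (hper k) _
      exact (hH a).symm

end Vale.Agent.P043.Euclid
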