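import Mathlib

/-!
P043: distinct odd primes and the matching idempotents.
-/

namespace Vale.Agent.P043

/-- Moduli `q`, an odd number `R` and idempotent shifts `e`. -/
structure Par (ι : Type) where
  R : ℕ
  q : ι ⊕ Unit → ℕ
  e : ι ⊕ Unit → ℤ
  odd : R % 2 = 1
  q_two : q (Sum.inr ()) = 2
  one_lt : ∀ m, 1 < q m
  dvd : ∀ m, q m ∣ 2 * R
  e_self : ∀ m, ((e m : ℤ) : ZMod (q m)) = 1
  e_other : ∀ m m', m ≠ m' → (q m : ℤ) ∣ e m'
  e_two : e (Sum.inr ()) = R

lemma exists_par (ι : Type) [Fintype ι] : Nonempty (Par ι) := by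
  classical
  obtain ⟨p, hp, hodd, hinj⟩ :
      ∃ p : ι → ℕ, (∀ i, (p i).Prime) ∧ (∀ i, p i % 2 = 1) ∧ Function.Injective p := by
    refine ⟨fun i => Nat.nth Nat.Prime ((Fintype.equivFin ι i : ℕ) + 1),
      fun i => Nat.prime_nth_prime _, fun i => ?_, fun i j h => ?_⟩
    · have h2 : Nat.nth Nat.Prime 0 < Nat.nth Nat.Prime ((Fintype.equivFin ι i : ℕ) + 1) :=
        Nat.nth_strictMono Nat.infinite_setOfPred_prime (Nat.succ_pos _)
      rw [Nat.nth_prime_zero_eq_two] at h2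
      rcases (Nat.prime_nth_prime ((Fintype.equivFin ι i : ℕ) + 1)).eq_two_or_odd with h | h
      · omega
      · exact h
    · have := Nat.nth_injective Nat.infinite_setOfPred_prime h
      exact (Fintype.equivFin ι).injective (Fin.ext (by omega))
  obtain ⟨R, hR⟩ : ∃ R, R = ∏ i, p i := ⟨_, rfl⟩
  have hRo : R % 2 = 1 := by
    rw [hR, Finset.prod_nat_mod, Finset.prod_congr rfl fun i _ => hodd i]; simp
  have hex : ∀ i, ∃ e : ℤ, (e : ZMod (p i)) = 1 ∧ (2 : ℤ) ∣ e ∧ ∀ j, j ≠ i → (p j : ℤ) ∣ e := by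
    intro i
    haveI := Fact.mk (hp i)
    obtain ⟨M, hM⟩ : ∃ M : ℕ, M = 2 * ∏ j ∈ Finset.univ.erase i, p j := ⟨_, rfl⟩
    have hM0 : (M : ZMod (p i)) ≠ 0 := by
      intro h0
      rw [ZMod.natCast_eq_zero_iff] at h0
      rw [hM] at h0
      rcases (hp i).dvd_mul.1 h0 with h | h
      · have := (Nat.prime_dvd_prime_iff_eq (hp i) Nat.prime_two).1 h
        have := hodd i
        omega
      · obtain ⟨j, hj, hd⟩ := (hp i).prime.exists_mem_finset_dvd h
        have := (Nat.prime_dvd_prime_iff_eq (hp i) (hp j)).1 hd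
        exact (Finset.mem_erase.1 hj).1 (hinj this).symm
    refine ⟨(M : ℤ) * (((M : ZMod (p i))⁻¹).val : ℤ), ?_, ?_, fun j hj => ?_⟩
    · push_cast
      rw [ZMod.natCast_zmod_val, mul_inv_cancel₀ hM0]
    · exact (Int.natCast_dvd_natCast.2 (hM ▸ Dvd.intro _ rfl : 2 ∣ M)).mul_right _
    · refine (Int.natCast_dvd_natCast.2 ?_).mul_right _
      rw [hM]
      exact (Finset.dvd_prod_of_mem p (Finset.mem_erase.2 ⟨hj, Finset.mem_univ j⟩)).mul_left 2
  choose e he1 he2 he3 using hex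
  refine ⟨⟨R, Sum.elim p (fun _ => 2), Sum.elim e (fun _ => (R : ℤ)), hRo, rfl, ?_, ?_, ?_, ?_, rfl⟩⟩
  · rintro (i | _)
    · exact (hp i).one_lt
    · exact one_lt_two
  · rintro (i | _)
    · exact (hR ▸ Finset.dvd_prod_of_mem p (Finset.mem_univ i)).mul_left 2
    · exact dvd_mul_right 2 R
  · rintro (i | _)
    · exact he1 i
    · show (((R : ℤ)) : ZMod 2) = 1
      rw [Int.cast_natCast, ← ZMod.natCast_mod, hRo, Nat.cast_one]
  · rintro (i | _) (j | _) h
    · exact he3 j i fun hh => h (by rw [hh])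
    · exact Int.natCast_dvd_natCast.2 (hR ▸ Finset.dvd_prod_of_mem p (Finset.mem_univ i))
    · exact he2 j
    · exact absurd rfl h

end Vale.Agent.P043
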