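import Mathlib
import Vale.Agent.P043.Aperiodic
import Vale.Agent.P043.Params
import Vale.Agent.P043.Group

/-!
P043: a finite system of tiling equations in `ℤ² × ℤ/4R × ℤ/2R` with no periodic solution.
-/

namespace Vale.Agent.P043

/-- the bits: two for each form, and two parities -/
abbrev Var : Type := ((Fin 3 × Fin 5) × Bool) ⊕ Bool

/-- the components: a bit and its complement, and the clock -/
abbrev Comp : Type := (Var × Bool) ⊕ Unit

/-- first bit and second bit of a state -/
def encS : Option (ZMod 3) → Bool → Bool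
  | none, _ => false
  | some t, false => decide (t = 0 ∨ t = 2)
  | some t, true => decide (t = 1 ∨ t = 2)

/-- the state of two bits -/
def decS : Bool → Bool → Option (ZMod 3)
  | false, false => none
  | true, false => some 0
  | false, true => some 1
  | true, true => some 2

lemma dec_enc : ∀ s, decS (encS s false) (encS s true) = s := by decide

/-- the form along whose level lines a bit is constant -/
def fm : Var → ℤ × ℤ
  | Sum.inl ((c, j), _) => coef c j
  | Sum.inr false => (1, 0)
  | Sum.inr true => (1, 1)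

/-- the direction of a bit -/
def vdir (i : Var) : ℤ × ℤ := if (fm i).1 = 1 then (-(fm i).2, 1) else (1, -(fm i).1)

/-- a point on a level line -/
def bpt (i : Var) (m : ℤ) : ℤ × ℤ := if (fm i).1 = 1 then (m, 0) else (0, m)

/-- the value of the form of a bit -/
def flin (i : Var) (x : ℤ × ℤ) : ℤ := (fm i).1 * x.1 + (fm i).2 * x.2

lemma fm_cases (i : Var) : (fm i).1 = 1 ∨ (fm i).2 = 1 := by
  rcases i with ⟨⟨c, j⟩, b⟩ | (_ | _)
  · fin_cases c <;> fin_cases j <;> simp [fm, coef]
  · simp [fm]
  · simp [fm]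

lemma flin_vdir (i : Var) (x : ℤ × ℤ) : flin i (x + vdir i) = flin i x := by
  rcases fm_cases i with h | h
  · simp [flin, vdir, h]; ring
  · by_cases h' : (fm i).1 = 1
    · simp [flin, vdir, h']; ring
    · simp [flin, vdir, h', h]; ring

lemma point_eq (i : Var) (x : ℤ × ℤ) : ∃ k : ℤ, x = bpt i (flin i x) + k • vdir i := by
  obtain ⟨x1, x2⟩ := x
  by_cases h' : (fm i).1 = 1
  · exact ⟨x2, by ext <;> simp [bpt, flin, vdir, h']; ring⟩
  · exact ⟨x1, by ext <;> simp [bpt, flin, vdir, h', (fm_cases i).resolve_left h']; ring⟩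

/-- the state pattern of an assignment of bits -/
def statesOf (f : Var → Bool) (c : Fin 3) (j : Fin 5) : Option (ZMod 3) :=
  decS (f (Sum.inl ((c, j), false))) (f (Sum.inl ((c, j), true)))

/-- the forbidden assignments to the bits and the clock (`none`) -/
def Forb : Type :=
  {τ : Option Var → Bool //
    ¬ Rel (statesOf fun i => τ (some i)) (τ (some (Sum.inr false))) (τ (some (Sum.inr true)))
      (τ none)}

variable (P : Par (Var × Bool))

/-- a component of the fibre group -/
def prj (m : Comp) : Fib P.R →+ ZMod (P.q m) :=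
  (ZMod.castHom (P.dvd m) (ZMod (P.q m))).toAddMonoidHom.comp (AddMonoidHom.snd _ _)

lemma prj_int (m : Comp) (j : ZMod 2) (z : ℤ) :
    prj P m (j, (z : ZMod (2 * P.R))) = (z : ZMod (P.q m)) := by
  simp [prj]

/-- the first phase -/
def phaseJ : Fib P.R →+ ZMod (P.q (Sum.inr ())) :=
  (ZMod.castHom (dvd_of_eq P.q_two) (ZMod (P.q (Sum.inr ())))).toAddMonoidHom.comp
    (AddMonoidHom.fst _ _)

/-- the second phase -/
def phaseV : Fib P.R →+ ZMod (P.q (Sum.inr ())) := phaseJ P + prj P (Sum.inr ())

lemma phaseJ_int (k : ℤ) (z : ZMod (2 * P.R)) :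
    phaseJ P ((k : ZMod 2), z) = (k : ZMod (P.q (Sum.inr ()))) := by
  simp [phaseJ]

lemma two_zero : (2 : ZMod (P.q (Sum.inr ()))) = 0 := by
  have h : ((2 : ℕ) : ZMod (P.q (Sum.inr ()))) = 0 := by
    rw [ZMod.natCast_eq_zero_iff, P.q_two]
  simpa using h

lemma two_cases (z : ZMod (P.q (Sum.inr ()))) : z = 0 ∨ z = 1 := by
  have key : ∀ n, n = 2 → ∀ w : ZMod n, w = 0 ∨ w = 1 := by rintro n rfl; decide
  exact key _ P.q_two z

lemma one_ne (m : Comp) : (1 : ZMod (P.q m)) ≠ 0 := by
  haveI := Fact.mk (P.one_lt m)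
  exact one_ne_zero

/-- target value of a bit -/
def bz (m : Comp) (b : Bool) : ZMod (P.q m) := if b then 1 else 0

/-- the increment read by a literal -/
def inc (a : ℤ × ℤ → ℤ → Fib P.R) (m : Comp) (x : ℤ × ℤ) (y : ℤ) : ZMod (P.q m) :=
  prj P m (a x (y + P.e m)) - prj P m (a x y)

lemma clause_iff {n : ℕ} (l : Fin (n + 1) → Comp) (hl : Function.Injective l)
    (τ : ∀ k, ZMod (P.q (l k))) (a : ℤ × ℤ → ℤ → Fib P.R)
    (hper : ∀ m x y, prj P m (a x (y + P.q m)) = prj P m (a x y)) :
    EqSol a (orShift (X := ℤ × ℤ) fun k => P.e (l k)) (orPiece (fun k => prj P (l k)) τ) ↔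
      ∀ x y, ∃ k, inc P a (l k) x y = τ k := by
  classical
  apply or_iff
  · intro ε i x y
    obtain ⟨t, ht⟩ : (P.q (l i) : ℤ) ∣
        ∑ k ∈ Finset.univ.erase i, if ε k then P.e (l k) else 0 := by
      apply Finset.dvd_sum
      intro k hk
      split
      · exact P.e_other _ _ fun h => (Finset.mem_erase.1 hk).1 (hl h).symm
      · exact dvd_zero _
    have h := inv_iterate (prj P (l i)) 0 (0 : ℤ × ℤ) (P.q (l i)) a
      (fun x y => by simpa using hper (l i) x y) t x (y + if ε i then P.e (l i) else 0)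
    simp only [smul_zero, add_zero] at h
    rw [← h, ← Finset.add_sum_erase _ _ (Finset.mem_univ i), ht]
    congr 2
    ring
  · intro f
    refine ⟨(0, ((∑ k, (ZMod.cast (f k) : ℤ) * P.e (l k) : ℤ) : ZMod (2 * P.R))), fun i => ?_⟩
    rw [prj_int, Int.cast_sum, Finset.sum_eq_single i]
    · rw [Int.cast_mul, P.e_self, mul_one, ZMod.intCast_zmod_cast]
    · intro k _ hk
      rw [ZMod.intCast_zmod_eq_zero_iff_dvd]
      exact dvd_mul_of_dvd_right (P.e_other _ _ fun h => hk (hl h).symm) _
    · simp

/-- enumeration of the literals of a forbidden assignment -/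
noncomputable def enumO : Fin (Fintype.card Var + 1) ≃ Option Var :=
  (finSuccEquiv _).trans (Equiv.optionCongr (Fintype.equivFin Var).symm)

/-- literal of a bit, or of the clock -/
def litO : Option Var → Comp
  | none => Sum.inr ()
  | some i => Sum.inl (i, false)

lemma litO_inj : Function.Injective litO := by
  rintro (_ | i) (_ | j) h <;> simp [litO] at h ⊢
  exact h

/-- the two literals of a bit -/
def litU (i : Var) (k : Fin 2) : Comp := Sum.inl (i, decide (k = 1))

lemma litU_inj (i : Var) : Function.Injective (litU i) := by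
  intro k l h
  fin_cases k <;> fin_cases l <;> simp [litU] at h ⊢

/-- shifts of the phase equations -/
def jShift : Fin 3 → (ℤ × ℤ) × ℤ
  | 0 => ((0, 0), 2)
  | 1 => ((1, 0), 0)
  | 2 => ((0, 1), 1)

/-- shifts of the second phase -/
def vShift : Fin 3 → (ℤ × ℤ) × ℤ
  | 0 => ((0, 0), 2)
  | 1 => ((1, 0), 0)
  | 2 => ((0, 1), 0)

/-- increments of the phases -/
def phInc (k : Fin 3) : ZMod (P.q (Sum.inr ())) := if k = 0 then 1 else 0

/-- equation names -/
inductive Eqn : Type
  | base
  | per (m : Comp)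
  | dir (i : Var)
  | phJ (k : Fin 3)
  | phV (k : Fin 3)
  | unit (i : Var) (b : Bool)
  | forb (τ : Forb)

instance : Finite Forb := by unfold Forb; infer_instance

instance : Finite Eqn := by
  refine Finite.of_surjective
    (fun s : Unit ⊕ Comp ⊕ Var ⊕ Fin 3 ⊕ Fin 3 ⊕ (Var × Bool) ⊕ Forb =>
      (match s with
      | .inl _ => Eqn.base
      | .inr (.inl m) => .per m
      | .inr (.inr (.inl i)) => .dir i
      | .inr (.inr (.inr (.inl k))) => .phJ k
      | .inr (.inr (.inr (.inr (.inl k)))) => .phV k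
      | .inr (.inr (.inr (.inr (.inr (.inl u))))) => .unit u.1 u.2
      | .inr (.inr (.inr (.inr (.inr (.inr τ))))) => .forb τ : Eqn)) ?_
  intro e
  cases e with
  | base => exact ⟨.inl (), rfl⟩
  | per m => exact ⟨.inr (.inl m), rfl⟩
  | dir i => exact ⟨.inr (.inr (.inl i)), rfl⟩
  | phJ k => exact ⟨.inr (.inr (.inr (.inl k))), rfl⟩
  | phV k => exact ⟨.inr (.inr (.inr (.inr (.inl k)))), rfl⟩
  | unit i b => exact ⟨.inr (.inr (.inr (.inr (.inr (.inl (i, b)))))), rfl⟩
  | forb τ => exact ⟨.inr (.inr (.inr (.inr (.inr (.inr τ))))), rfl⟩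

/-- cell indices of an equation -/
def Idx : Eqn → Type
  | .base => Fib P.R
  | .per m => Σ j, {w // invPiece (prj P m) 0 j w}
  | .dir i => Σ j, {w // invPiece (prj P (Sum.inl (i, false))) 0 j w}
  | .phJ k => Σ j, {w // invPiece (phaseJ P) (phInc P k) j w}
  | .phV k => Σ j, {w // invPiece (phaseV P) (phInc P k) j w}
  | .unit i b => Σ ε, {w // orPiece (fun k => prj P (litU i k)) (fun k => bz P (litU i k) b) ε w}
  | .forb τ => Σ ε, {w // orPiece (fun k => prj P (litO (enumO k)))
      (fun k => bz P (litO (enumO k)) (!τ.1 (enumO k))) ε w}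

/-- cells of an equation -/
noncomputable def eqCells : ∀ q, Idx P q → Gam P.R
  | .base => fun g => emb P.R g
  | .per m => cells P.R (invShift 0 (P.q m)) (invPiece (prj P m) 0)
  | .dir i => cells P.R (invShift (vdir i) 0) (invPiece (prj P (Sum.inl (i, false))) 0)
  | .phJ k => cells P.R (invShift (jShift k).1 (jShift k).2) (invPiece (phaseJ P) (phInc P k))
  | .phV k => cells P.R (invShift (vShift k).1 (vShift k).2) (invPiece (phaseV P) (phInc P k))
  | .unit i b => cells P.R (orShift fun k => P.e (litU i k))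
      (orPiece (fun k => prj P (litU i k)) (fun k => bz P (litU i k) b))
  | .forb τ => cells P.R (orShift fun k => P.e (litO (enumO k)))
      (orPiece (fun k => prj P (litO (enumO k))) (fun k => bz P (litO (enumO k)) (!τ.1 (enumO k))))

instance [NeZero P.R] (q : Eqn) : Finite (Idx P q) := by
  cases q <;> unfold Idx <;> infer_instance

/-- everything a section has to satisfy -/
structure Cond (a : ℤ × ℤ → ℤ → Fib P.R) : Prop where
  per : ∀ m x y, prj P m (a x (y + P.q m)) = prj P m (a x y)
  dir : ∀ i x y, prj P (Sum.inl (i, false)) (a (x + vdir i) y)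
    = prj P (Sum.inl (i, false)) (a x y)
  phJ : ∀ k x y, phaseJ P (a (x + (jShift k).1) (y + (jShift k).2))
    = phaseJ P (a x y) + phInc P k
  phV : ∀ k x y, phaseV P (a (x + (vShift k).1) (y + (vShift k).2))
    = phaseV P (a x y) + phInc P k
  unit : ∀ i b x y, ∃ k, inc P a (litU i k) x y = bz P (litU i k) b
  forb : ∀ (τ : Forb) x y, ∃ o, inc P a (litO o) x y = bz P (litO o) (!τ.1 o)

lemma covers_iff_cond {A : Set (Gam P.R)} {a : ℤ × ℤ → ℤ → Fib P.R} (ha : HasSection P.R A a) :
    (∀ q, Covers A (eqCells P q)) ↔ Cond P a := by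
  constructor
  · intro h
    have hper : ∀ m x y, prj P m (a x (y + P.q m)) = prj P m (a x y) := fun m x y => by
      have := (inv_iff _ _ _ _ _).1 ((covers_cells_iff P.R ha _ _).1 (h (.per m))) x y
      simpa using this
    refine ⟨hper, fun i x y => ?_, fun k x y => ?_, fun k x y => ?_, fun i b x y => ?_,
      fun τ x y => ?_⟩
    · have := (inv_iff _ _ _ _ _).1 ((covers_cells_iff P.R ha _ _).1 (h (.dir i))) x y
      simpa using this
    · exact (inv_iff _ _ _ _ _).1 ((covers_cells_iff P.R ha _ _).1 (h (.phJ k))) x y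
    · exact (inv_iff _ _ _ _ _).1 ((covers_cells_iff P.R ha _ _).1 (h (.phV k))) x y
    · exact (clause_iff P _ (litU_inj i) _ a hper).1
        ((covers_cells_iff P.R ha _ _).1 (h (.unit i b))) x y
    · obtain ⟨k, hk⟩ := (clause_iff P _ (litO_inj.comp enumO.injective) _ a hper).1
        ((covers_cells_iff P.R ha _ _).1 (h (.forb τ))) x y
      exact ⟨enumO k, hk⟩
  · intro h q
    cases q with
    | base => exact (base_covers_iff P.R A).2 ⟨a, ha⟩
    | per m =>
      refine (covers_cells_iff P.R ha _ _).2 ((inv_iff _ _ _ _ _).2 fun x y => ?_)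
      simpa using h.per m x y
    | dir i =>
      refine (covers_cells_iff P.R ha _ _).2 ((inv_iff _ _ _ _ _).2 fun x y => ?_)
      simpa using h.dir i x y
    | phJ k => exact (covers_cells_iff P.R ha _ _).2 ((inv_iff _ _ _ _ _).2 (h.phJ k))
    | phV k => exact (covers_cells_iff P.R ha _ _).2 ((inv_iff _ _ _ _ _).2 (h.phV k))
    | unit i b =>
      exact (covers_cells_iff P.R ha _ _).2
        ((clause_iff P _ (litU_inj i) _ a h.per).2 (h.unit i b))
    | forb τ =>
      refine (covers_cells_iff P.R ha _ _).2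
        ((clause_iff P _ (litO_inj.comp enumO.injective) _ a h.per).2 fun x y => ?_)
      obtain ⟨o, ho⟩ := h.forb τ x y
      obtain ⟨k, rfl⟩ := enumO.surjective o
      exact ⟨k, ho⟩

lemma cond_no_period {a : ℤ × ℤ → ℤ → Fib P.R} (h : Cond P a) (N : ℕ) (hN : 0 < N)
    (hper : ∀ x y, a (x + ((N : ℤ), 0)) y = a x y) : False := by
  classical
  obtain ⟨D, hD⟩ : ∃ D : ∀ m, ℤ × ℤ → ZMod (P.q m), ∀ m x, D m x = inc P a m x 0 :=
    ⟨fun m x => inc P a m x 0, fun _ _ => rfl⟩
  obtain ⟨bit, hbit⟩ : ∃ bit : Var → ℤ × ℤ → Bool,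
      ∀ i x, bit i x = decide (D (Sum.inl (i, false)) x = 1) := ⟨_, fun _ _ => rfl⟩
  have hval : ∀ i x, D (Sum.inl (i, false)) x = bz P _ (bit i x) := by
    intro i x
    rw [hbit]
    by_cases h1 : D (Sum.inl (i, false)) x = 1
    · simp [h1, bz]
    · rw [hD] at h1 ⊢
      have hk : inc P a (Sum.inl (i, false)) x 0 = 0 ∨ inc P a (Sum.inl (i, true)) x 0 = 0 :=
        Fin.exists_fin_two.1 (h.unit i false x 0)
      have hl : inc P a (Sum.inl (i, false)) x 0 = 1 ∨ inc P a (Sum.inl (i, true)) x 0 = 1 :=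
        Fin.exists_fin_two.1 (h.unit i true x 0)
      rcases hk with hk | hk
      · simp [bz, h1, hk]
      · rcases hl with hl | hl
        · exact absurd hl h1
        · exact absurd (hl.symm.trans hk) (one_ne P _)
  have hdir : ∀ i x, bit i (x + vdir i) = bit i x := by
    intro i x
    rw [hbit, hbit, hD, hD, inc, inc, h.dir, h.dir]
  have hline : ∀ i x, bit i x = bit i (bpt i (flin i x)) := by
    intro i x
    obtain ⟨k, hk⟩ := point_eq i x
    conv_lhs => rw [hk]
    clear hk
    generalize bpt i (flin i x) = z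
    induction k using Int.induction_on with
    | zero => simp
    | succ j ih => rw [add_smul, one_smul, ← add_assoc, hdir, ih]
    | pred j ih =>
      have := hdir i (z + (-(j : ℤ) - 1) • vdir i)
      rw [add_assoc, ← add_one_zsmul, sub_add_cancel, ih] at this
      exact this.symm
  -- the clock
  obtain ⟨r, hr⟩ : ∃ r : ℤ, (P.R : ℤ) = 2 * r + 1 := ⟨(P.R : ℤ) / 2, by have := P.odd; omega⟩
  have h2 := two_zero P
  have hpv : ∀ x y, prj P (Sum.inr ()) (a x y) = phaseV P (a x y) - phaseJ P (a x y) := by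
    intro x y; simp [phaseV]
  have hclock : ∀ x : ℤ × ℤ, D (Sum.inr ()) (x + (0, 1)) = D (Sum.inr ()) x + 1 ∧
      D (Sum.inr ()) (x + (1, 0)) = D (Sum.inr ()) x := by
    intro x
    constructor
    · have j0 := h.phJ 2 x (-1)
      have j1 := h.phJ 2 x ((P.R : ℤ) - 1)
      have j2 := h.phJ 0 x (-1)
      have v0 := h.phV 2 x 0
      have v1 := h.phV 2 x (P.R : ℤ)
      have iJ := inv_iterate (phaseJ P) (1 : ZMod (P.q (Sum.inr ()))) (0 : ℤ × ℤ) 2 a
        (fun x y => by simpa [jShift, phInc, Prod.mk_zero_zero] using h.phJ 0 x y) r x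
      have e1 := iJ 0
      have e2 := iJ 1
      simp only [jShift, vShift, phInc, Fin.reduceEq, ↓reduceIte, add_zero, smul_zero,
        zero_add, sub_add_cancel, neg_add_cancel, Prod.mk_zero_zero] at j0 j1 j2 v0 v1 e1 e2
      rw [show ((-1 : ℤ) + 2) = 1 by norm_num] at j2
      rw [show (r * 2 : ℤ) = P.R - 1 by omega] at e1
      rw [show (1 + r * 2 : ℤ) = P.R by omega] at e2
      simp only [hD, inc, P.e_two, zero_add, hpv]
      rw [j0, j1, v0, v1, e1, e2, j2]
      linear_combination
        (phaseJ P (a x (-1)) - phaseJ P (a x 0)) * h2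
    · have := h.phJ 1 x
      have := h.phV 1 x
      simp only [hD, inc, P.e_two, zero_add, hpv]
      have a1 := h.phJ 1 x 0
      have a2 := h.phJ 1 x (P.R : ℤ)
      have a3 := h.phV 1 x 0
      have a4 := h.phV 1 x (P.R : ℤ)
      simp only [jShift, vShift, phInc, Fin.reduceEq, ↓reduceIte, add_zero] at a1 a2 a3 a4
      rw [a1, a2, a3, a4]
  have hclock' : ∀ x : ℤ × ℤ, D (Sum.inr ()) x = D (Sum.inr ()) 0 + (x.2 : ZMod _) := by
    intro x
    obtain ⟨x1, x2⟩ := x
    induction x2 using Int.induction_on with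
    | zero =>
      induction x1 using Int.induction_on with
      | zero => simp [Prod.mk_zero_zero]
      | succ j ih =>
        have := (hclock ((j : ℤ), 0)).2
        simp only [Prod.mk_add_mk, add_zero] at this
        rw [this, ih]
      | pred j ih =>
        have := (hclock (-(j : ℤ) - 1, 0)).2
        simp only [Prod.mk_add_mk, add_zero, sub_add_cancel] at this
        rw [← this, ih]
    | succ j ih =>
      have := (hclock (x1, (j : ℤ))).1
      simp only [Prod.mk_add_mk, add_zero] at this
      rw [this, ih]; push_cast; ring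
    | pred j ih =>
      have := (hclock (x1, -(j : ℤ) - 1)).1
      simp only [Prod.mk_add_mk, add_zero, sub_add_cancel] at this
      rw [ih] at this
      push_cast at this ⊢
      linear_combination -this
  obtain ⟨κ, hκ⟩ : ∃ κ : ℤ, (κ : ZMod (P.q (Sum.inr ()))) = D (Sum.inr ()) 0 :=
    ZMod.intCast_surjective _
  have hodd : ∀ z : ℤ, decide ((z : ZMod (P.q (Sum.inr ()))) = 1) = decide (Odd z) := by
    intro z
    apply decide_eq_decide.2
    rw [← sub_eq_zero, ← Int.cast_one, ← Int.cast_sub, ZMod.intCast_zmod_eq_zero_iff_dvd,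
      P.q_two, Int.odd_iff]
    omega
  have hc : ∀ x : ℤ × ℤ, decide (D (Sum.inr ()) x = 1) = decide (Odd (x.2 + κ)) := by
    intro x
    rw [hclock', ← hκ, ← Int.cast_add, hodd, add_comm]
  -- the relation
  obtain ⟨F, hF⟩ : ∃ F : Fin 3 → Fin 5 → ℤ → Option (ZMod 3), ∀ c j m,
      F c j m = statesOf (fun i => bit i (bpt i m)) c j := ⟨_, fun _ _ _ => rfl⟩
  apply no_periodic F (fun m => bit (Sum.inr false) (bpt (Sum.inr false) m))
    (fun m => bit (Sum.inr true) (bpt (Sum.inr true) m)) κ ?_ N (by omega)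
  · intro m
    have hb : ∀ b, bit (Sum.inl (((2 : Fin 3), (0 : Fin 5)), b)) (m + N, 0)
        = bit (Sum.inl (((2 : Fin 3), (0 : Fin 5)), b)) (m, 0) := by
      intro b
      have := hper (m, 0)
      simp only [Prod.mk_add_mk, add_zero] at this
      simp [hbit, hD, inc, this]
    simp [hF, statesOf, bpt, fm, coef, hb]
  · intro x
    by_contra hnR
    obtain ⟨τ, hτ⟩ : ∃ τ : Option Var → Bool, τ none = decide (D (Sum.inr ()) x = 1) ∧
        ∀ i, τ (some i) = bit i x :=
      ⟨fun o => o.elim (decide (D (Sum.inr ()) x = 1)) (fun i => bit i x), rfl, fun _ => rfl⟩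
    have hforb : ¬ Rel (statesOf fun i => τ (some i)) (τ (some (Sum.inr false)))
        (τ (some (Sum.inr true))) (τ none) := by
      have e1 : (statesOf fun i => τ (some i)) = fun c j => F c j (lin c j x) := by
        funext c j
        have q : ∀ b, bit (Sum.inl ((c, j), b)) x
            = bit (Sum.inl ((c, j), b)) (bpt (Sum.inl ((c, j), b)) (lin c j x)) :=
          fun b => hline _ x
        simp only [hF, statesOf, hτ.2, ← q]
      rw [e1, hτ.1, hτ.2, hτ.2, hc, hline (Sum.inr false), hline (Sum.inr true)]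
      simpa [flin, fm] using hnR
    obtain ⟨o, ho⟩ := h.forb ⟨τ, hforb⟩ x 0
    simp only at ho
    rw [← hD] at ho
    cases o with
    | none =>
      simp only [litO, hτ.1] at ho
      rcases two_cases P (D (Sum.inr ()) x) with e | e <;>
        simp [e, bz, one_ne, (one_ne P (Sum.inr ())).symm] at ho
    | some i =>
      simp only [litO, hval, hτ.2] at ho
      cases hb : bit i x <;> simp [hb, bz, one_ne, (one_ne P (Sum.inl (i, false))).symm] at ho

/-- the intended value of a component -/
def target (x : ℤ × ℤ) (y : ℤ) : Comp → ℤ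
  | Sum.inl (i, b) => if xor b (match i with
      | Sum.inl ((c, j), k) => encS (val3 (lin c j x)) k
      | Sum.inr _ => decide (Odd (flin i x))) then y else 0
  | Sum.inr _ => (y - x.2) / 2 + y / 2

/-- the intended section -/
def goal (x : ℤ × ℤ) (y : ℤ) : Fib P.R :=
  ((((y - x.2) / 2 : ℤ) : ZMod 2), ((∑ m, target x y m * P.e m : ℤ) : ZMod (2 * P.R)))

lemma prj_goal (m : Comp) (x : ℤ × ℤ) (y : ℤ) :
    prj P m (goal P x y) = (target x y m : ZMod (P.q m)) := by
  rw [goal, prj_int, Int.cast_sum, Finset.sum_eq_single m]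
  · rw [Int.cast_mul, P.e_self, mul_one]
  · intro k _ hk
    rw [ZMod.intCast_zmod_eq_zero_iff_dvd]
    exact dvd_mul_of_dvd_right (P.e_other _ _ (Ne.symm hk)) _
  · simp

lemma goal_cov (x : ℤ × ℤ) (y k : ℤ) :
    goal P x (y + 2 * P.R * k) = goal P x y + ((k : ZMod 2), 0) := by
  have hR := P.odd
  refine Prod.ext ?_ ?_
  · simp only [goal, Prod.fst_add]
    rw [← Int.cast_add, ZMod.intCast_eq_intCast_iff_dvd_sub]
    have e : (y + 2 * P.R * k - x.2) / 2 = (y - x.2) / 2 + P.R * k := by
      rw [show y + 2 * (P.R : ℤ) * k - x.2 = y - x.2 + 2 * ((P.R : ℤ) * k) by ring,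
        Int.add_mul_ediv_left _ _ two_ne_zero]
    rw [e]
    obtain ⟨r, hr⟩ : ∃ r : ℤ, (P.R : ℤ) = 2 * r + 1 := ⟨(P.R : ℤ) / 2, by omega⟩
    exact ⟨-(r * k), by rw [hr]; push_cast; ring⟩
  · simp only [goal, Prod.snd_add]
    rw [add_zero, Int.cast_sum, Int.cast_sum]
    refine Finset.sum_congr rfl fun m _ => ?_
    rw [ZMod.intCast_eq_intCast_iff_dvd_sub]
    rcases m with ⟨i, b⟩ | _
    · have e : ∀ p : Prop, [Decidable p] → ((if p then y else 0) * P.e (Sum.inl (i, b)) -
          (if p then y + 2 * P.R * k else 0) * P.e (Sum.inl (i, b)) : ℤ)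
          = ((2 * P.R : ℕ) : ℤ) * -((if p then k else 0) * P.e (Sum.inl (i, b))) := by
        intro p _; split <;> push_cast <;> ring
      exact ⟨_, e _⟩
    · have e : target x (y + 2 * P.R * k) (Sum.inr ())
          = target x y (Sum.inr ()) + 2 * (P.R * k) := by
        simp only [target]
        rw [show y + 2 * (P.R : ℤ) * k - x.2 = y - x.2 + 2 * ((P.R : ℤ) * k) by ring,
          show y + 2 * (P.R : ℤ) * k = y + 2 * ((P.R : ℤ) * k) by ring,
          Int.add_mul_ediv_left _ _ two_ne_zero, Int.add_mul_ediv_left _ _ two_ne_zero]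
        ring
      rw [e, P.e_two]
      exact ⟨-(P.R * k), by push_cast; ring⟩

lemma goal_cond : Cond P (goal P) := by
  classical
  have hR := P.odd
  have hflin : ∀ c j k x, flin (Sum.inl ((c, j), k)) x = lin c j x := fun c j k x => rfl
  have hJ : ∀ x y, phaseJ P (goal P x y) = (((y - x.2) / 2 : ℤ) : ZMod _) :=
    fun x y => phaseJ_int P _ _
  have hV : ∀ x y, phaseV P (goal P x y)
      = (((y - x.2) / 2 + ((y - x.2) / 2 + y / 2) : ℤ) : ZMod _) := by
    intro x y
    simp only [phaseV, AddMonoidHom.add_apply, hJ, prj_goal, target, Int.cast_add]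
  have hincb : ∀ i b x y, inc P (goal P) (Sum.inl (i, b)) x y
      = bz P _ (xor b (match i with
        | Sum.inl ((c, j), k) => encS (val3 (lin c j x)) k
        | Sum.inr _ => decide (Odd (flin i x)))) := by
    intro i b x y
    simp only [inc, prj_goal, target, bz]
    generalize xor b _ = z
    cases z <;> simp [P.e_self]
  have hincc : ∀ x y, inc P (goal P) (Sum.inr ()) x y = bz P _ (decide (Odd x.2)) := by
    intro x y
    simp only [inc, prj_goal, target, bz, P.e_two, ← Int.cast_sub]
    split_ifs with ho <;> simp only [decide_eq_true_eq, Int.odd_iff] at ho <;>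
      [rw [← Int.cast_one]; rw [← Int.cast_zero]] <;>
      rw [ZMod.intCast_eq_intCast_iff_dvd_sub, P.q_two] <;> push_cast <;> omega
  refine ⟨fun m x y => ?_, fun i x y => ?_, fun k x y => ?_, fun k x y => ?_, fun i b x y => ?_,
    fun τ x y => ?_⟩
  · simp only [prj_goal]
    rcases m with ⟨i, b⟩ | _
    · simp only [target]
      split <;> simp
    · rw [ZMod.intCast_eq_intCast_iff_dvd_sub, P.q_two]
      simp only [target]
      push_cast
      omega
  · simp only [prj_goal, target]
    rcases i with ⟨⟨c, j⟩, k⟩ | k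
    · simp only [← hflin c j k, flin_vdir]
    · simp only [flin_vdir]
  · simp only [hJ, phInc]
    fin_cases k <;> simp [jShift]
    rw [← sub_eq_iff_eq_add', ← Int.cast_sub, ← Int.cast_one,
      ZMod.intCast_eq_intCast_iff_dvd_sub, P.q_two]
    push_cast
    omega
  · simp only [hV, phInc]
    fin_cases k <;> simp only [vShift]
    · simp only [Prod.snd_add, add_zero]
      simp only [Fin.zero_eta, ↓reduceIte]
      rw [← sub_eq_iff_eq_add', ← Int.cast_sub, ← Int.cast_one,
        ZMod.intCast_eq_intCast_iff_dvd_sub, P.q_two]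
      push_cast
      omega
    · simp
    · simp only [Prod.snd_add, add_zero]
      rw [if_neg (by decide), add_zero, ZMod.intCast_eq_intCast_iff_dvd_sub, P.q_two]
      push_cast
      omega
  · by_cases hb : (match i with
        | Sum.inl ((c, j), k) => encS (val3 (lin c j x)) k
        | Sum.inr _ => decide (Odd (flin i x))) = b
    · exact ⟨0, by rw [litU, hincb, hb]; simp⟩
    · refine ⟨1, ?_⟩
      rw [litU, hincb]
      congr 1
      revert hb
      generalize (match i with
        | Sum.inl ((c, j), k) => encS (val3 (lin c j x)) k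
        | Sum.inr _ => decide (Odd (flin i x))) = z
      cases z <;> cases b <;> simp
  · by_contra hno
    push Not at hno
    apply τ.2
    have hb : ∀ i, τ.1 (some i) = (match i with
        | Sum.inl ((c, j), k) => encS (val3 (lin c j x)) k
        | Sum.inr _ => decide (Odd (flin i x))) := by
      intro i
      by_contra hne
      apply hno (some i)
      rw [litO, hincb]
      congr 1
      revert hne
      generalize (match i with
        | Sum.inl ((c, j), k) => encS (val3 (lin c j x)) k
        | Sum.inr _ => decide (Odd (flin i x))) = z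
      cases z <;> cases τ.1 (some i) <;> simp
    have hc : τ.1 none = decide (Odd x.2) := by
      by_contra hne
      apply hno none
      rw [litO, hincc]
      congr 1
      revert hne
      cases τ.1 none <;> cases decide (Odd x.2) <;> simp
    have := rel_intended x
    unfold statesOf
    simpa [hb, hc, dec_enc, flin, fm] using this

/-- A finite system of tiling equations in `Gam` with a solution and no solution periodic in `x₁`. -/
theorem system :
    (∃ A : Set (Gam P.R), ∀ q, Covers A (eqCells P q)) ∧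
    ∀ A : Set (Gam P.R), (∀ q, Covers A (eqCells P q)) → ∀ N : ℕ, 0 < N →
      ¬ ∀ γ, γ ∈ A ↔ γ + (((N : ℤ), 0), 0) ∈ A := by
  constructor
  · exact ⟨_, (covers_iff_cond P (hasSection_range P.R _ (goal_cov P))).2 (goal_cond P)⟩
  · intro A hA N hN hp
    obtain ⟨a, ha⟩ := (base_covers_iff P.R A).1 (hA .base)
    refine cond_no_period P ((covers_iff_cond P ha).1 hA) N hN fun x y => ?_
    rw [← ha, hp]
    convert (ha (x + ((N : ℤ), 0)) y (a (x + ((N : ℤ), 0)) y)).2 rfl using 1
    ext <;> simp [pnt] <;> ring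

end Vale.Agent.P043
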