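import Mathlib
import Vale.Agent.P043.System
import Vale.Agent.P043.Lift

/-!
P043: the periodic tiling conjecture fails in `ℤ^d` for every `d ≥ 4`.
-/

namespace Vale.Agent.P043

variable (P : Par (Var × Bool))

/-- the quotient map to `Gam` -/
def qmap : Pt →+ Gam P.R where
  toFun z := ((z 0, z 1), ((z 2 : ZMod (4 * P.R)), (z 3 : ZMod (2 * P.R))))
  map_zero' := by simp
  map_add' a b := by simp

lemma qmap_surjective : Function.Surjective (qmap P) := by
  rintro ⟨⟨a, b⟩, Y, Z⟩
  obtain ⟨y, rfl⟩ := ZMod.intCast_surjective Y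
  obtain ⟨z, rfl⟩ := ZMod.intCast_surjective Z
  exact ⟨![a, b, y, z], by simp [qmap]⟩

/-- the generators of the kernel -/
def kerGen : Bool → Pt
  | false => ![0, 0, 4 * (P.R : ℤ), 0]
  | true => ![0, 0, 0, 2 * (P.R : ℤ)]

lemma qmap_kerGen (b : Bool) : qmap P (kerGen P b) = 0 := by
  cases b <;> simp [qmap, kerGen, Prod.ext_iff] <;>
    · have := ZMod.natCast_self (4 * P.R)
      have := ZMod.natCast_self (2 * P.R)
      push_cast at *
      assumption

lemma ker_span {z : Pt} (h : qmap P z = 0) :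
    ∃ s t : ℤ, z = s • kerGen P false + t • kerGen P true := by
  simp only [qmap, AddMonoidHom.coe_mk, ZeroHom.coe_mk, Prod.ext_iff, Prod.fst_zero,
    Prod.snd_zero] at h
  obtain ⟨⟨h0, h1⟩, h2, h3⟩ := h
  rw [ZMod.intCast_zmod_eq_zero_iff_dvd] at h2 h3
  obtain ⟨s, hs⟩ := h2
  obtain ⟨t, ht⟩ := h3
  push_cast at hs ht
  refine ⟨s, t, funext fun i => ?_⟩
  fin_cases i <;> simp [kerGen, h0, h1, hs, ht] <;> ring

/-- index types of the lifted equations -/
def Idx4 : Eqn ⊕ Bool → Type := Sum.elim (Idx P) (fun _ => Fib P.R)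

/-- lifted equations, and the base equation with one moved cell -/
noncomputable def cells4 : ∀ q, Idx4 P q → Pt
  | Sum.inl q => fun i => Function.surjInv (qmap_surjective P) (eqCells P q i)
  | Sum.inr b => fun g => Function.update
      (fun g : Fib P.R => Function.surjInv (qmap_surjective P) (emb P.R g)) 0
      (Function.surjInv (qmap_surjective P) (emb P.R 0) + kerGen P b) g

lemma aperiodic_dim4 :
    ∃ F : Finset Pt,
      (∃ A : Set Pt, ∀ z, ∃! p : Pt × Pt, p.1 ∈ A ∧ p.2 ∈ F ∧ p.1 + p.2 = z) ∧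
      ∀ A : Set Pt, (∀ z, ∃! p : Pt × Pt, p.1 ∈ A ∧ p.2 ∈ F ∧ p.1 + p.2 = z) →
        ∀ N : ℕ, 0 < N → ¬ ∀ z v : Pt, z ∈ A ↔ z + N • v ∈ A := by
  obtain ⟨P⟩ := exists_par (Var × Bool)
  haveI : NeZero P.R := ⟨by have := P.odd; omega⟩
  haveI : Nonempty (Eqn ⊕ Bool) := ⟨Sum.inr false⟩
  haveI : ∀ q, Finite (Idx4 P q) := by
    rintro (q | b) <;> simp only [Idx4, Sum.elim_inl, Sum.elim_inr] <;> infer_instance
  have hs : ∀ γ, qmap P (Function.surjInv (qmap_surjective P) γ) = γ :=
    Function.surjInv_eq (qmap_surjective P)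
  refine tile_of_system (cells4 P) ?_ ?_
  · obtain ⟨A, hA⟩ := (system P).1
    refine ⟨qmap P ⁻¹' A, ?_⟩
    rintro (q | b) z
    · obtain ⟨i, hi, hu⟩ := hA q (qmap P z)
      refine ⟨i, ?_, fun i' hi' => hu i' ?_⟩
      · show qmap P (z - Function.surjInv (qmap_surjective P) (eqCells P q i)) ∈ A
        rw [map_sub, hs]; exact hi
      · have h : qmap P (z - Function.surjInv (qmap_surjective P) (eqCells P q i')) ∈ A := hi'
        rw [map_sub, hs] at h
        exact h
    · have e : ∀ g : Fib P.R, qmap P (Function.update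
          (fun g : Fib P.R => Function.surjInv (qmap_surjective P) (emb P.R g)) 0
          (Function.surjInv (qmap_surjective P) (emb P.R 0) + kerGen P b) g) = emb P.R g := by
        intro g
        by_cases hg : g = 0
        · subst hg; rw [Function.update_self, map_add, hs, qmap_kerGen, add_zero]
        · rw [Function.update_of_ne hg, hs]
      obtain ⟨g, hg, hu⟩ : ∃! g : Fib P.R, qmap P z - emb P.R g ∈ A := hA .base (qmap P z)
      refine ⟨g, ?_, fun (g' : Fib P.R) hg' => hu g' ?_⟩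
      · show qmap P (z - Function.update
          (fun g : Fib P.R => Function.surjInv (qmap_surjective P) (emb P.R g)) 0
          (Function.surjInv (qmap_surjective P) (emb P.R 0) + kerGen P b) g) ∈ A
        rw [map_sub, e]; exact hg
      · have h : qmap P (z - Function.update
          (fun g : Fib P.R => Function.surjInv (qmap_surjective P) (emb P.R g)) 0
          (Function.surjInv (qmap_surjective P) (emb P.R 0) + kerGen P b) g') ∈ A := hg'
        rw [map_sub, e] at h
        exact h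
  · intro B hB N hN hper
    have inv : ∀ b a, a + kerGen P b ∈ B ↔ a ∈ B := fun b =>
      moved_invariant (i₀ := (0 : Fib P.R))
        (E := fun g : Fib P.R => Function.surjInv (qmap_surjective P) (emb P.R g))
        (hB (Sum.inl .base)) (hB (Sum.inr b))
    have sat : ∀ z w, qmap P z = qmap P w → (z ∈ B ↔ w ∈ B) := by
      intro z w h
      obtain ⟨s, t, e⟩ := ker_span P (z := z - w) (by rw [map_sub, h, sub_self])
      rw [sub_eq_iff_eq_add'] at e
      rw [e, ← add_assoc, invariant_zsmul (inv true), invariant_zsmul (inv false)]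
    have mem : ∀ z, qmap P z ∈ qmap P '' B ↔ z ∈ B := fun z =>
      ⟨fun ⟨w, hw, e⟩ => (sat z w e.symm).2 hw, fun h => ⟨z, h, rfl⟩⟩
    refine (system P).2 (qmap P '' B) (fun q γ => ?_) N hN fun γ => ?_
    · obtain ⟨z, rfl⟩ := qmap_surjective P γ
      have key : ∀ i, qmap P z - eqCells P q i ∈ qmap P '' B ↔
          z - cells4 P (Sum.inl q) i ∈ B := fun i => by
        rw [← mem, map_sub]; simp only [cells4, hs]
      simp only [key]
      exact hB (Sum.inl q) z
    · obtain ⟨z, rfl⟩ := qmap_surjective P γ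
      have e : ((((N : ℤ), 0), 0) : Gam P.R) = qmap P (N • unit4 0) := by
        simp [qmap, unit4, Prod.ext_iff]
      rw [e, ← map_add, mem, mem]
      exact hper z _

lemma aperiodic_dim (d : ℕ) (hd : 4 ≤ d) :
    ∃ F : Finset (Fin d → ℤ),
      (∃ A : Set (Fin d → ℤ), ∀ z,
        ∃! p : (Fin d → ℤ) × (Fin d → ℤ), p.1 ∈ A ∧ p.2 ∈ F ∧ p.1 + p.2 = z) ∧
      ∀ A : Set (Fin d → ℤ),
        (∀ z, ∃! p : (Fin d → ℤ) × (Fin d → ℤ), p.1 ∈ A ∧ p.2 ∈ F ∧ p.1 + p.2 = z) →
        ¬ ∃ H : AddSubgroup (Fin d → ℤ), H.index ≠ 0 ∧ ∀ h ∈ H, ∀ a, a + h ∈ A ↔ a ∈ A := by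
  classical
  obtain ⟨F, ⟨A, hA⟩, hno⟩ := aperiodic_dim4
  obtain ⟨up, hup⟩ : ∃ up : Pt → (Fin d → ℤ),
      ∀ a i, up a i = if h : (i : ℕ) < 4 then a ⟨i, h⟩ else 0 := ⟨_, fun _ _ => rfl⟩
  obtain ⟨hd4, hhd⟩ : ∃ hd4 : (Fin d → ℤ) → Pt, ∀ z i, hd4 z i = z (Fin.castLE hd i) :=
    ⟨_, fun _ _ => rfl⟩
  have hdup : ∀ a, hd4 (up a) = a := by
    intro a; funext i
    rw [hhd, hup, dif_pos (by simp)]
    rfl
  have upadd : ∀ a b, up (a + b) = up a + up b := by
    intro a b; funext i
    by_cases h : (i : ℕ) < 4 <;> simp [hup, h]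
  have hdadd : ∀ a b, hd4 (a + b) = hd4 a + hd4 b := by
    intro a b; funext i; simp [hhd]
  refine ⟨F.image up, ⟨{z | hd4 z ∈ A}, fun z => ?_⟩, ?_⟩
  · obtain ⟨⟨a, f⟩, ⟨ha, hf, hs⟩, hu⟩ := hA (hd4 z)
    refine ⟨(z - up f, up f), ⟨?_, Finset.mem_image_of_mem up hf, sub_add_cancel _ _⟩, ?_⟩
    · show hd4 (z - up f) ∈ A
      have : hd4 (z - up f) = a := by
        have := hdadd (z - up f) (up f)
        rw [sub_add_cancel, hdup, ← hs] at this
        exact (add_right_cancel this).symm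
      rw [this]; exact ha
    · rintro ⟨a', f'⟩ ⟨ha', hf', hs'⟩
      simp only [Finset.mem_image] at hf'
      obtain ⟨g, hg, rfl⟩ := hf'
      simp only at hs' ha'
      have h := hu (hd4 a', g) ⟨ha', hg, by rw [← hs', hdadd, hdup]⟩
      simp only [Prod.mk.injEq] at h
      rw [← h.2, ← hs', add_sub_cancel_right]
  · rintro A' hA' ⟨H, hH, hper⟩
    refine hno {a | up a ∈ A'} (fun z => ?_) H.index (Nat.pos_of_ne_zero hH) fun z v => ?_
    · obtain ⟨⟨a, f⟩, ⟨ha, hf, hs⟩, hu⟩ := hA' (up z)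
      simp only [Finset.mem_image] at hf
      obtain ⟨g, hg, rfl⟩ := hf
      simp only at hs ha
      have e : a = up (z - g) := by
        have := upadd (z - g) g
        rw [sub_add_cancel, ← hs] at this
        exact add_right_cancel this
      refine ⟨(z - g, g), ⟨by show up (z - g) ∈ A'; rw [← e]; exact ha, hg, sub_add_cancel _ _⟩, ?_⟩
      rintro ⟨b, g'⟩ ⟨hb, hg', hs'⟩
      simp only at hs'
      have h := hu (up b, up g') ⟨hb, Finset.mem_image_of_mem up hg', by rw [← upadd, hs']⟩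
      simp only [Prod.mk.injEq] at h
      have h2 : g' = g := by rw [← hdup g', h.2, hdup]
      subst h2
      rw [← hs', add_sub_cancel_right]
    · show up z ∈ A' ↔ up (z + H.index • v) ∈ A'
      have e : up (H.index • v) = H.index • up v := by
        funext i; by_cases h : (i : ℕ) < 4 <;> simp [hup, h]
      rw [upadd, e]
      exact (hper _ (AddSubgroup.nsmul_index_mem H (up v)) (up z)).symm

end Vale.Agent.P043
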